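import Mathlib
import Crest.Prelude.Def_ChromaticQSym

/-! R59 (S0081): shared definitions (helper638).
`ed h A B` = number of edges `a < b` with `a ∈ A`, `b ∈ B`; `qn q k = 1 + q + ... + q^(k-1)`;
`T h q B = ∏_{w ∈ B, w ≠ min B} qn q (number of smaller neighbours of w in B)`;
`XE h q e S` = the e-expansion recursion (peel the block that contains `min S`);
`XN h q z N S` = chromatic quasisymmetric function of the induced graph on `S`, colours `0..N-1`,
peeled by the last colour. -/

set_option autoImplicit false

namespace Crest.Agent.R59.Def638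

open Finset

variable {n : ℕ} (h : Fin n → ℕ)

/-- `a < b` and `{a,b}` is an edge -/
def adj (a b : Fin n) : Prop := a < b ∧ b.val + 1 ≤ h a

instance (a b : Fin n) : Decidable (adj h a b) := by unfold adj; infer_instance

/-- number of edges `a < b`, `a ∈ A`, `b ∈ B` -/
def ed (A B : Finset (Fin n)) : ℕ := ((A ×ˢ B).filter (fun p => adj h p.1 p.2)).card

variable {A : Type*} [CommRing A] (q : A)

/-- `1 + q + ... + q^(k-1)` -/
def qn (k : ℕ) : A := ∑ i ∈ range k, q ^ i

/-- `∏_{w ∈ B, w not the minimum} qn (deg⁻_B w)` -/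
def T (B : Finset (Fin n)) : A :=
  ∏ w ∈ B.filter (fun w => ∃ a ∈ B, a < w), qn q (ed h B {w})

/-- the blocks `B ⊆ S` that contain `min S` -/
def blocks (S : Finset (Fin n)) : Finset (Finset (Fin n)) :=
  S.powerset.filter (fun B => B.Nonempty ∧ ∀ s ∈ S, ∃ b ∈ B, b ≤ s)

/-- coefficient of the block `B` in the recursion for `S` -/
def cf (S B : Finset (Fin n)) : A :=
  (qn q (B.card + ed h (S \ B) B) - qn q (ed h B (S \ B))) * T h q B

/-- the e-expansion recursion -/
noncomputable def XE (e : ℕ → A) (S : Finset (Fin n)) : A :=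
  if S = ∅ then 1 else
    ∑ B ∈ (blocks S).attach, cf h q S B.1 * e B.1.card * XE e (S \ B.1)
termination_by S.card
decreasing_by
  have hB := B.2
  simp only [blocks, mem_filter, mem_powerset] at hB
  exact card_lt_card (sdiff_ssubset hB.1 hB.2.1)

theorem XE_empty (e : ℕ → A) : XE h q e (∅ : Finset (Fin n)) = 1 := by
  rw [XE]; simp

theorem XE_eq (e : ℕ → A) (S : Finset (Fin n)) (hS : S ≠ ∅) :
    XE h q e S = ∑ B ∈ blocks S, cf h q S B * e B.card * XE h q e (S \ B) := by
  rw [XE, if_neg hS]
  exact Finset.sum_attach (blocks S) (fun B => cf h q S B * e B.card * XE h q e (S \ B))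

/-- stable sets -/
def stable (C : Finset (Fin n)) : Prop := ∀ a ∈ C, ∀ b ∈ C, ¬ adj h a b

instance (C : Finset (Fin n)) : Decidable (stable h C) := by unfold stable; infer_instance

/-- chromatic quasisymmetric function of the induced graph on `S` in the variables
`z 0, ..., z (N-1)` (peel the last colour class `C`) -/
def XN (z : ℕ → A) : ℕ → Finset (Fin n) → A
  | 0, S => if S = ∅ then 1 else 0
  | N + 1, S => ∑ C ∈ S.powerset.filter (fun C => stable h C),
      q ^ ed h (S \ C) C * z N ^ C.card * XN z N (S \ C)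

end Crest.Agent.R59.Def638
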