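import Crest.Agent.R59.Link321d
import Crest.Agent.R59.Def638

/-! R59, first link in the `q` normalisation (helper321). -/

set_option autoImplicit false
set_option linter.unusedSectionVars false

namespace Crest.Agent.R59.FL321

open Finset Crest.Agent.R59.Def638 Crest.Agent.R59.Link321
open Crest.CombinatoricsR.UnitInterval

variable {n : ℕ} {h : Fin n → ℕ}

instance : DecidableRel (adj h) := fun _ _ => inferInstance

theorem ui (hm : Monotone h) : UI (adj h) := by
  constructor
  · intro a b hab; exact hab.1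
  · intro a b c hab hbc hac
    refine ⟨⟨hab, ?_⟩, ⟨hbc, ?_⟩⟩
    · have := hac.2
      have h2 : b.val < c.val := hbc
      omega
    · exact le_trans hac.2 (hm (le_of_lt hab))

theorem ed_eq (A B : Finset (Fin n)) : ed h A B = ∑ b ∈ B, dg (adj h) A b := by
  unfold ed dg
  rw [card_filter, sum_product_right]
  apply sum_congr rfl
  intro b _
  rw [card_filter]

theorem pr_eq (A C : Finset (Fin n)) : pr (adj h) A C = (ed h A C : ℤ) - ed h C A := by
  unfold pr
  rw [ed_eq, ed_eq]; push_cast; ring

theorem ed_union_left {A B : Finset (Fin n)} (hd : Disjoint A B) (C : Finset (Fin n)) :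
    ed h (A ∪ B) C = ed h A C + ed h B C := by
  rw [ed_eq, ed_eq, ed_eq, ← sum_add_distrib]
  exact sum_congr rfl (fun w _ => dg_union hd w)

theorem ed_union_right {A B : Finset (Fin n)} (hd : Disjoint A B) (C : Finset (Fin n)) :
    ed h C (A ∪ B) = ed h C A + ed h C B := by
  rw [ed_eq, ed_eq, ed_eq, sum_union hd]

/-- number of edges inside -/
def eg (h : Fin n → ℕ) (S : Finset (Fin n)) : ℕ := ed h S S

theorem eg_union {A B : Finset (Fin n)} (hd : Disjoint A B) :
    eg h (A ∪ B) = eg h A + eg h B + ed h A B + ed h B A := by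
  unfold eg
  rw [ed_union_left hd, ed_union_right hd, ed_union_right hd]; ring

theorem eg_sdiff {S C : Finset (Fin n)} (hC : C ⊆ S) :
    eg h S = eg h (S \ C) + eg h C + ed h (S \ C) C + ed h C (S \ C) := by
  conv_lhs => rw [← sdiff_union_of_subset hC]
  exact eg_union sdiff_disjoint

theorem eg_stable {C : Finset (Fin n)} (hC : stable h C) : eg h C = 0 := by
  unfold eg ed
  rw [card_eq_zero, filter_eq_empty_iff]
  rintro ⟨a, b⟩ hab
  rw [mem_product] at hab
  exact hC a hab.1 b hab.2

variable {K : Type*} [CommRing K] (v : Kˣ)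

theorem V_natCast_mul (k : ℕ) (m : ℤ) : V v m ^ k = V v (m * k) := by
  unfold V
  rw [zpow_mul, zpow_natCast, Units.val_pow_eq_pow_val]

/-- (a) `XN = v^edges XX` -/
theorem XN_eq_XX (z : ℕ → K) (N : ℕ) : ∀ S : Finset (Fin n),
    XN h (V v 2) z N S = V v (eg h S) * XX (adj h) v z N S := by
  induction N with
  | zero =>
    intro S
    simp only [XN, XX]
    split_ifs with hS
    · subst hS
      have : eg h (∅ : Finset (Fin n)) = 0 := by simp [eg, ed]
      rw [this]; simp [V_zero]
    · simp
  | succ N ih =>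
    intro S
    simp only [XN, XX]
    rw [mul_sum, sum_filter]
    apply sum_congr rfl
    intro C hC
    have hCS : C ⊆ S := mem_powerset.mp hC
    by_cases hst : stable h C
    · have hst' : Stab (adj h) C := hst
      rw [if_pos hst, if_pos hst', ih, V_natCast_mul, pr_eq, eg_sdiff hCS, eg_stable hst]
      have e : V v (((eg h (S \ C) + 0 + ed h (S \ C) C + ed h C (S \ C) : ℕ)) : ℤ)
          * V v ((ed h (S \ C) C : ℤ) - ed h C (S \ C)) =
          V v (2 * (ed h (S \ C) C : ℤ)) * V v (eg h (S \ C)) := by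
        rw [← V_add, ← V_add]; congr 1; push_cast; ring
      calc V v (2 * (ed h (S \ C) C : ℤ)) * z N ^ C.card *
            (V v (eg h (S \ C)) * XX (adj h) v z N (S \ C))
          = (V v (2 * (ed h (S \ C) C : ℤ)) * V v (eg h (S \ C))) * z N ^ C.card
            * XX (adj h) v z N (S \ C) := by ring
        _ = _ := by rw [← e]; ring
    · have hst' : ¬ Stab (adj h) C := hst
      rw [if_neg hst, if_neg hst']; simp

theorem V_qi_nat (d : ℕ) : V v ((d : ℤ) - 1) * qi v d = Def638.qn (V v 2) d := by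
  rw [qi_nat]
  unfold Link321.qn Def638.qn
  rw [mul_sum, ← sum_range_reflect]
  apply sum_congr rfl
  intro i hi
  rw [mem_range] at hi
  rw [V_natCast_mul, ← V_add]
  congr 1
  have : ((d - 1 - i : ℕ) : ℤ) = (d : ℤ) - 1 - i := by omega
  rw [this]; ring

theorem qn_tel (a : ℕ) : (V v 1 - V v (-1)) * Def638.qn (V v 2) a
    = V v (2 * a - 1) - V v (-1) := by
  unfold Def638.qn
  induction a with
  | zero => simp
  | succ a ih =>
    rw [sum_range_succ, mul_add, ih, V_natCast_mul, sub_mul, ← V_add, ← V_add]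
    have e1 : (1 : ℤ) + 2 * a = 2 * ((a + 1 : ℕ) : ℤ) - 1 := by push_cast; ring
    have e2 : (-1 : ℤ) + 2 * a = 2 * a - 1 := by ring
    rw [e1, e2]; ring

variable {v}

theorem V_qi_sub (hreg : Reg v) (a b : ℕ) : V v ((a : ℤ) + b - 1) * qi v ((a : ℤ) - b)
    = Def638.qn (V v 2) a - Def638.qn (V v 2) b := by
  apply hreg
  rw [mul_sub, qn_tel, qn_tel, mul_left_comm, qi_mul, mul_sub, ← V_add, ← V_add]
  have e1 : (a : ℤ) + b - 1 + (a - b) = 2 * a - 1 := by ring
  have e2 : (a : ℤ) + b - 1 + -(a - b) = 2 * b - 1 := by ring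
  rw [e1, e2]; ring

theorem dg_min {B : Finset (Fin n)} {m : Fin n} (hB : ∀ b ∈ B, m ≤ b) :
    dg (adj h) B m = 0 := by
  unfold dg
  rw [card_eq_zero, filter_eq_empty_iff]
  intro b hb hbm
  exact absurd hbm.1 (not_lt.mpr (hB b hb))

theorem filter_min {B : Finset (Fin n)} {m : Fin n} (hm : m ∈ B) (hB : ∀ b ∈ B, m ≤ b) :
    B.filter (fun w => ∃ a ∈ B, a < w) = B.erase m := by
  ext w
  simp only [mem_filter, mem_erase]
  constructor
  · rintro ⟨h1, a, ha, haw⟩
    exact ⟨ne_of_gt (lt_of_le_of_lt (hB a ha) haw), h1⟩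
  · rintro ⟨h1, h2⟩
    exact ⟨h2, m, hm, lt_of_le_of_ne (hB w h2) (Ne.symm h1)⟩

theorem V_TT {B : Finset (Fin n)} {m : Fin n} (hm : m ∈ B) (hB : ∀ b ∈ B, m ≤ b) :
    V v ((eg h B : ℤ) - (B.card - 1)) * TT (adj h) v m B = T h (V v 2) B := by
  unfold T TT
  rw [filter_min hm hB]
  have h1 : (eg h B : ℤ) - (B.card - 1) = ∑ w ∈ B.erase m, ((dg (adj h) B w : ℤ) - 1) := by
    rw [sum_sub_distrib]
    have h2 : (eg h B : ℤ) = ∑ w ∈ B.erase m, (dg (adj h) B w : ℤ) := by
      unfold eg; rw [ed_eq, ← sum_erase_add _ _ hm, dg_min hB]; push_cast; ring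
    rw [h2]
    have h3 : ((B.erase m).card : ℤ) = B.card - 1 := by
      rw [card_erase_of_mem hm]
      have := card_pos.mpr ⟨m, hm⟩
      omega
    simp [h3]
  have h4 : ∀ (s : Finset (Fin n)) (f : Fin n → ℤ), V v (∑ w ∈ s, f w) = ∏ w ∈ s, V v (f w) := by
    intro s f
    classical
    induction s using Finset.induction_on with
    | empty => simp [V_zero]
    | insert a s ha ih => rw [sum_insert ha, prod_insert ha, V_add, ih]
  rw [h1, h4, ← prod_mul_distrib]
  apply prod_congr rfl
  intro w _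
  rw [V_qi_nat, ed_eq]; simp

theorem bs_mem (m : Fin n) (U C : Finset (Fin n)) : m ∈ bs m U C := by simp [bs]

/-- (b) the recursion in the `q` normalisation, `q = v²` -/
theorem XN_rec (hm : Monotone h) (hreg : Reg v) (z : ℕ → K) (N : ℕ) (m : Fin n)
    (U : Finset (Fin n)) (hU : ∀ u ∈ U, m < u) :
    XN h (V v 2) z N (insert m U) = ∑ C ∈ U.powerset,
      cf h (V v 2) (insert m U) (bs m U C) * ez z N (bs m U C).card * XN h (V v 2) z N C := by
  rw [XN_eq_XX, link v (ui hm) hreg z m N U hU, mul_sum]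
  apply sum_congr rfl
  intro C hC
  have hCU : C ⊆ U := mem_powerset.mp hC
  have hmU : m ∉ U := fun h => lt_irrefl _ (hU m h)
  set B := bs m U C with hB
  have hmB : m ∈ B := bs_mem m U C
  have hBm : ∀ b ∈ B, m ≤ b := by
    intro b hb
    rw [hB, bs, mem_insert] at hb
    rcases hb with rfl | hb
    · exact le_refl _
    · exact le_of_lt (hU b (mem_sdiff.mp hb).1)
  have hBS : B ⊆ insert m U := by
    rw [hB, bs]; exact insert_subset_insert _ sdiff_subset
  have hSB : insert m U \ B = C := by
    rw [hB, bs]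
    ext y
    simp only [mem_sdiff, mem_insert]
    constructor
    · rintro ⟨g1, g2⟩
      rcases g1 with g1 | g1
      · exact absurd (Or.inl g1) g2
      · by_contra g3
        exact g2 (Or.inr ⟨g1, g3⟩)
    · intro g
      refine ⟨Or.inr (hCU g), ?_⟩
      rintro (g3 | ⟨_, g4⟩)
      · rw [g3] at g; exact hmU (hCU g)
      · exact g4 g
  have heg := eg_sdiff (h := h) hBS
  rw [hSB] at heg
  rw [XN_eq_XX, cf, hSB, ← V_TT hmB hBm, heg]
  have e1 := V_qi_sub hreg (B.card + ed h C B) (ed h B C)
  rw [← e1, pr_eq]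
  have e2 : V v (((eg h C + eg h B + ed h C B + ed h B C : ℕ)) : ℤ)
      = V v (((B.card + ed h C B : ℕ) : ℤ) + ed h B C - 1) * V v ((eg h B : ℤ) - (B.card - 1))
        * V v (eg h C) := by
    rw [← V_add, ← V_add]; congr 1; push_cast; ring
  have e3 : ((B.card + ed h C B : ℕ) : ℤ) - ed h B C
      = (B.card : ℤ) - ((ed h B C : ℤ) - ed h C B) := by push_cast; ring
  rw [e2, e3]; ring


theorem blocks_insert (m : Fin n) (U : Finset (Fin n)) (hU : ∀ u ∈ U, m < u) :
    blocks (insert m U) = U.powerset.image (fun C => bs m U C) := by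
  have hmU : m ∉ U := fun h => lt_irrefl _ (hU m h)
  ext B
  simp only [blocks, mem_filter, mem_powerset, mem_image]
  constructor
  · rintro ⟨h1, _, h3⟩
    have hmB : m ∈ B := by
      obtain ⟨b, hb, hbm⟩ := h3 m (mem_insert_self _ _)
      have := h1 hb
      rw [mem_insert] at this
      rcases this with rfl | hbU
      · exact hb
      · exact absurd (hU b hbU) (not_lt.mpr hbm)
    refine ⟨U \ B, sdiff_subset, ?_⟩
    unfold bs
    ext y
    simp only [mem_insert, mem_sdiff, not_and, not_not]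
    constructor
    · rintro (rfl | ⟨g1, g2⟩)
      · exact hmB
      · exact g2 g1
    · intro hy
      have := h1 hy
      rw [mem_insert] at this
      rcases this with g | g
      · exact Or.inl g
      · exact Or.inr ⟨g, fun _ => hy⟩
  · rintro ⟨C, hC, rfl⟩
    refine ⟨?_, ⟨m, bs_mem m U C⟩, ?_⟩
    · unfold bs; exact insert_subset_insert _ sdiff_subset
    · intro s hs
      refine ⟨m, bs_mem m U C, ?_⟩
      rw [mem_insert] at hs
      rcases hs with rfl | hs
      · exact le_refl _
      · exact le_of_lt (hU s hs)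

theorem sdiff_bs {m : Fin n} {U C : Finset (Fin n)} (hmU : m ∉ U) (hCU : C ⊆ U) :
    insert m U \ bs m U C = C := by
  rw [bs]
  ext y
  simp only [mem_sdiff, mem_insert]
  constructor
  · rintro ⟨g1, g2⟩
    rcases g1 with g1 | g1
    · exact absurd (Or.inl g1) g2
    · by_contra g3
      exact g2 (Or.inr ⟨g1, g3⟩)
  · intro g
    refine ⟨Or.inr (hCU g), ?_⟩
    rintro (g3 | ⟨_, g4⟩)
    · rw [g3] at g; exact hmU (hCU g)
    · exact g4 g

theorem sum_blocks {M : Type*} [AddCommMonoid M] (m : Fin n) (U : Finset (Fin n))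
    (hU : ∀ u ∈ U, m < u) (f : Finset (Fin n) → M) :
    ∑ B ∈ blocks (insert m U), f B = ∑ C ∈ U.powerset, f (bs m U C) := by
  have hmU : m ∉ U := fun h => lt_irrefl _ (hU m h)
  rw [blocks_insert m U hU, sum_image]
  intro C hC D hD hCD
  rw [mem_coe, mem_powerset] at hC hD
  have h1 := sdiff_bs hmU hC
  have h2 := sdiff_bs hmU hD
  rw [← h1, ← h2]
  exact congrArg (fun X => insert m U \ X) hCD

theorem exists_min (S : Finset (Fin n)) (hS : S ≠ ∅) :
    ∃ (m : Fin n) (U : Finset (Fin n)), S = insert m U ∧ ∀ u ∈ U, m < u := by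
  have hne := nonempty_iff_ne_empty.mpr hS
  refine ⟨S.min' hne, S.erase (S.min' hne), (insert_erase (min'_mem _ _)).symm, ?_⟩
  intro u hu
  rw [mem_erase] at hu
  exact lt_of_le_of_ne (min'_le _ _ hu.2) (Ne.symm hu.1)

theorem XN_empty {A : Type*} [CommRing A] (q : A) (z : ℕ → A) (N : ℕ) :
    XN h q z N (∅ : Finset (Fin n)) = 1 := by
  induction N with
  | zero => simp [XN]
  | succ N ih =>
    have : stable h (∅ : Finset (Fin n)) := by intro a ha; simp at ha
    simp only [XN, powerset_empty]
    rw [filter_singleton, if_pos this]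
    simp [ed, ih]

/-- any function satisfying the recursion is `XE` -/
theorem eq_XE_of_rec {A : Type*} [CommRing A] (q : A) (e : ℕ → A) (F : Finset (Fin n) → A)
    (h0 : F ∅ = 1)
    (hrec : ∀ (m : Fin n) (U : Finset (Fin n)), (∀ u ∈ U, m < u) →
      F (insert m U) = ∑ C ∈ U.powerset,
        cf h q (insert m U) (bs m U C) * e (bs m U C).card * F C) :
    ∀ S, F S = XE h q e S := by
  intro S
  induction S using Finset.strongInduction with
  | H S ih =>
    by_cases hS : S = ∅
    · rw [hS, h0, XE_empty]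
    · obtain ⟨m, U, rfl, hU⟩ := exists_min S hS
      have hmU : m ∉ U := fun h => lt_irrefl _ (hU m h)
      rw [XE_eq h q e _ hS, sum_blocks m U hU, hrec m U hU]
      apply sum_congr rfl
      intro C hC
      have hCU : C ⊆ U := mem_powerset.mp hC
      rw [sdiff_bs hmU hCU, ih C]
      exact lt_of_le_of_lt hCU (ssubset_insert hmU)

theorem XN_eq_XE_V (hm : Monotone h) (hreg : Reg v) (z : ℕ → K) (N : ℕ) (S : Finset (Fin n)) :
    XN h (V v 2) z N S = XE h (V v 2) (fun k => ez z N k) S := by
  apply eq_XE_of_rec (V v 2) (fun k => ez z N k) (fun S => XN h (V v 2) z N S)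
  · exact XN_empty _ _ _
  · intro m U hU
    exact XN_rec hm hreg z N m U hU

section map

variable {A A' : Type*} [CommRing A] [CommRing A'] (φ : A →+* A')

theorem map_qn (q : A) (k : ℕ) : φ (Def638.qn q k) = Def638.qn (φ q) k := by
  unfold Def638.qn; simp

theorem map_T (q : A) (B : Finset (Fin n)) : φ (T h q B) = T h (φ q) B := by
  unfold T
  rw [map_prod]
  exact prod_congr rfl (fun w _ => map_qn φ q _)

theorem map_cf (q : A) (S B : Finset (Fin n)) : φ (cf h q S B) = cf h (φ q) S B := by
  unfold cf; rw [map_mul, map_sub, map_qn, map_qn, map_T]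

theorem map_XE (q : A) (e : ℕ → A) (S : Finset (Fin n)) :
    φ (XE h q e S) = XE h (φ q) (fun k => φ (e k)) S := by
  revert S
  apply eq_XE_of_rec (φ q) (fun k => φ (e k)) (fun S => φ (XE h q e S))
  · rw [XE_empty, map_one]
  · intro m U hU
    have hmU : m ∉ U := fun h => lt_irrefl _ (hU m h)
    rw [XE_eq h q e _ (insert_ne_empty m U), sum_blocks m U hU, map_sum]
    apply sum_congr rfl
    intro C hC
    rw [map_mul, map_mul, map_cf, sdiff_bs hmU (mem_powerset.mp hC)]

theorem map_XN (q : A) (z : ℕ → A) (N : ℕ) : ∀ S : Finset (Fin n),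
    φ (XN h q z N S) = XN h (φ q) (fun i => φ (z i)) N S := by
  induction N with
  | zero => intro S; simp only [XN]; split_ifs <;> simp
  | succ N ih =>
    intro S
    simp only [XN]
    rw [map_sum]
    apply sum_congr rfl
    intro C _
    rw [map_mul, map_mul, map_pow, map_pow, ih]

theorem map_ez (z : ℕ → A) (N : ℕ) : ∀ k : ℤ, φ (ez z N k) = ez (fun i => φ (z i)) N k := by
  induction N with
  | zero => intro k; simp only [ez]; split_ifs <;> simp
  | succ N ih => intro k; simp only [ez]; rw [map_add, map_mul, ih, ih]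

end map

/-- **first link**, over any domain -/
theorem XN_eq_XE {A : Type*} [CommRing A] [IsDomain A] (hm : Monotone h) (q : A) (hq0 : q ≠ 0)
    (hq1 : q ≠ 1) (z : ℕ → A) (N : ℕ) (S : Finset (Fin n)) :
    XN h q z N S = XE h q (fun k => ez z N k) S := by
  let F := AlgebraicClosure (FractionRing A)
  let φ : A →+* F := (algebraMap (FractionRing A) F).comp (algebraMap A (FractionRing A))
  have hφ : Function.Injective φ :=
    (algebraMap (FractionRing A) F).injective.comp (IsFractionRing.injective A (FractionRing A))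
  obtain ⟨w, hw⟩ := IsAlgClosed.exists_pow_nat_eq (φ q) (n := 2) (by norm_num)
  have hw0 : w ≠ 0 := by
    rintro rfl
    apply hq0
    apply hφ
    rw [map_zero, ← hw]; norm_num
  let v : Fˣ := Units.mk0 w hw0
  have hV2 : V v 2 = φ q := by
    rw [← hw]; simp [V, v]
  have hreg : Reg v := by
    intro a b hab
    have hne : V v 1 - V v (-1) ≠ 0 := by
      intro h0
      apply hq1
      apply hφ
      rw [map_one, ← hV2]
      have h1 : V v 1 = V v (-1) := sub_eq_zero.mp h0
      have h2 : V v 2 = V v 1 * V v 1 := by rw [← V_add]; norm_num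
      rw [h2]
      nth_rewrite 2 [h1]
      exact V_mul_neg v 1
    exact mul_left_cancel₀ hne hab
  apply hφ
  rw [map_XN, map_XE, ← hV2, XN_eq_XE_V hm hreg]
  simp only [map_ez]

end Crest.Agent.R59.FL321
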