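import Crest.Agent.R59.FL321
import Crest.Agent.R059.Stab

/-! R59: `chromaticQSym h N = XN h (C X) z N univ` and the universal form (helper321). -/

set_option autoImplicit false
set_option linter.unusedSectionVars false

namespace Crest.Agent.R59.FL321

open Finset Crest.Agent.R59.Def638 Crest.Agent.R59.Link321
open Crest.CombinatoricsR.UnitInterval

variable {n : ℕ} {h : Fin n → ℕ}

/-- colourings of `S` by `0..M-1` (value `0` off `S`) -/
def colS (S : Finset (Fin n)) (M : ℕ) : Finset (Fin n → ℕ) :=
  Fintype.piFinset (fun a => if a ∈ S then range M else {0})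

theorem mem_colS {S : Finset (Fin n)} {M : ℕ} {f : Fin n → ℕ} :
    f ∈ colS S M ↔ (∀ a ∈ S, f a < M) ∧ ∀ a ∉ S, f a = 0 := by
  unfold colS
  rw [Fintype.mem_piFinset]
  constructor
  · intro hf
    constructor
    · intro a ha; have := hf a; rw [if_pos ha, mem_range] at this; exact this
    · intro a ha; have := hf a; rw [if_neg ha, mem_singleton] at this; exact this
  · rintro ⟨h1, h2⟩ a
    split_ifs with ha
    · rw [mem_range]; exact h1 a ha
    · rw [mem_singleton]; exact h2 a ha

/-- proper on `S` -/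
def prop (h : Fin n → ℕ) (S : Finset (Fin n)) (f : Fin n → ℕ) : Prop :=
  ∀ a ∈ S, ∀ b ∈ S, adj h a b → f a ≠ f b

instance (h : Fin n → ℕ) (S : Finset (Fin n)) (f : Fin n → ℕ) : Decidable (prop h S f) := by
  unfold prop; infer_instance

/-- ascents inside `S` -/
def asc (h : Fin n → ℕ) (S : Finset (Fin n)) (f : Fin n → ℕ) : ℕ :=
  ((S ×ˢ S).filter (fun p => adj h p.1 p.2 ∧ f p.1 < f p.2)).card

variable {A : Type*} [CommRing A] (q : A)

theorem asc_split {S C : Finset (Fin n)} (hCS : C ⊆ S) {M : ℕ} {f : Fin n → ℕ}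
    (hf : ∀ a ∈ S, f a < M + 1) (hC : S.filter (fun a => f a = M) = C) :
    asc h S f = ed h (S \ C) C + asc h (S \ C) f := by
  have hC' : ∀ a ∈ S, (a ∈ C ↔ f a = M) := by
    intro a ha; rw [← hC, mem_filter]; exact ⟨fun g => g.2, fun g => ⟨ha, g⟩⟩
  unfold asc ed
  rw [← card_union_of_disjoint]
  · congr 1
    ext ⟨a, b⟩
    simp only [mem_union, mem_filter, mem_product, mem_sdiff]
    constructor
    · rintro ⟨⟨ha, hb⟩, hab, hlt⟩
      have haM : a ∉ C := by
        intro g
        have := (hC' a ha).mp g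
        have := hf b hb
        omega
      by_cases hbC : b ∈ C
      · exact Or.inl ⟨⟨⟨ha, haM⟩, hbC⟩, hab⟩
      · exact Or.inr ⟨⟨⟨ha, haM⟩, ⟨hb, hbC⟩⟩, hab, hlt⟩
    · rintro (⟨⟨⟨ha, haC⟩, hbC⟩, hab⟩ | ⟨⟨⟨ha, haC⟩, ⟨hb, hbC⟩⟩, hab, hlt⟩)
      · refine ⟨⟨ha, hCS hbC⟩, hab, ?_⟩
        have h1 := (hC' b (hCS hbC)).mp hbC
        have h2 : f a ≠ M := fun g => haC ((hC' a ha).mpr g)
        have h3 := hf a ha
        omega
      · exact ⟨⟨ha, hb⟩, hab, hlt⟩
  · rw [disjoint_left]
    rintro ⟨a, b⟩ h1 h2
    simp only [mem_filter, mem_product, mem_sdiff] at h1 h2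
    exact h2.1.2.2 h1.1.2

theorem asc_congr {S : Finset (Fin n)} {f g : Fin n → ℕ} (hfg : ∀ a ∈ S, f a = g a) :
    asc h S f = asc h S g := by
  unfold asc
  congr 1
  apply filter_congr
  rintro ⟨a, b⟩ hab
  rw [mem_product] at hab
  rw [hfg a hab.1, hfg b hab.2]

theorem XN_eq_sum (z : ℕ → A) (M : ℕ) : ∀ S : Finset (Fin n),
    XN h q z M S = ∑ f ∈ (colS S M).filter (fun f => prop h S f),
      q ^ asc h S f * ∏ a ∈ S, z (f a) := by
  induction M with
  | zero =>
    intro S
    simp only [XN]
    split_ifs with hS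
    · subst hS
      have : (colS (∅ : Finset (Fin n)) 0).filter (fun f => prop h ∅ f) = {fun _ => 0} := by
        ext f
        rw [mem_filter, mem_colS, mem_singleton]
        constructor
        · rintro ⟨⟨_, h2⟩, _⟩
          funext a; exact h2 a (by simp)
        · rintro rfl
          refine ⟨⟨by simp, by simp⟩, ?_⟩
          intro a ha; simp at ha
      rw [this]; simp [asc]
    · obtain ⟨a, ha⟩ := nonempty_iff_ne_empty.mpr hS
      have : (colS S 0).filter (fun f => prop h S f) = ∅ := by
        rw [filter_eq_empty_iff]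
        intro f hf
        rw [mem_colS] at hf
        exact absurd (hf.1 a ha) (Nat.not_lt_zero _)
      rw [this, sum_empty]
  | succ M ih =>
    intro S
    simp only [XN]
    have hmaps : ∀ f ∈ (colS S (M + 1)).filter (fun f => prop h S f),
        S.filter (fun a => f a = M) ∈ S.powerset := by
      intro f _; rw [mem_powerset]; exact filter_subset _ _
    rw [← sum_fiberwise_of_maps_to hmaps, sum_filter]
    apply sum_congr rfl
    intro C hC
    have hCS : C ⊆ S := mem_powerset.mp hC
    split_ifs with hst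
    · rw [ih, mul_sum]
      refine (sum_bij' (fun f _ => fun a => if a ∈ C then 0 else f a)
        (fun f _ => fun a => if a ∈ C then M else f a) ?_ ?_ ?_ ?_ ?_).symm
      · intro f hf
        rw [mem_filter, mem_filter, mem_colS] at hf
        obtain ⟨⟨⟨h1, h2⟩, h3⟩, h4⟩ := hf
        have hC' : ∀ a ∈ S, (a ∈ C ↔ f a = M) := by
          intro a ha; rw [← h4, mem_filter]; exact ⟨fun g => g.2, fun g => ⟨ha, g⟩⟩
        rw [mem_filter, mem_colS]
        refine ⟨⟨?_, ?_⟩, ?_⟩
        · intro a ha
          rw [mem_sdiff] at ha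
          simp only [if_neg ha.2]
          have := h1 a ha.1
          have h5 : f a ≠ M := fun g => ha.2 ((hC' a ha.1).mpr g)
          omega
        · intro a ha
          split_ifs with g
          · rfl
          · apply h2
            intro g2
            exact ha (mem_sdiff.mpr ⟨g2, g⟩)
        · intro a ha b hb hab
          rw [mem_sdiff] at ha hb
          simp only [if_neg ha.2, if_neg hb.2]
          exact h3 a ha.1 b hb.1 hab
      · intro f hf
        rw [mem_filter, mem_colS] at hf
        obtain ⟨⟨h1, h2⟩, h3⟩ := hf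
        rw [mem_filter, mem_filter, mem_colS]
        refine ⟨⟨⟨?_, ?_⟩, ?_⟩, ?_⟩
        · intro a ha
          split_ifs with g
          · exact Nat.lt_succ_self _
          · exact Nat.lt_succ_of_lt (h1 a (mem_sdiff.mpr ⟨ha, g⟩))
        · intro a ha
          rw [if_neg (fun g => ha (hCS g))]
          apply h2
          intro g; exact ha (mem_sdiff.mp g).1
        · intro a ha b hb hab
          simp only
          split_ifs with g1 g2 g2
          · exact absurd hab (hst a g1 b g2)
          · exact ne_of_gt (h1 b (mem_sdiff.mpr ⟨hb, g2⟩))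
          · exact ne_of_lt (h1 a (mem_sdiff.mpr ⟨ha, g1⟩))
          · exact h3 a (mem_sdiff.mpr ⟨ha, g1⟩) b (mem_sdiff.mpr ⟨hb, g2⟩) hab
        · ext a
          rw [mem_filter]
          constructor
          · rintro ⟨ha, g⟩
            by_contra g2
            simp only [if_neg g2] at g
            exact absurd g (ne_of_lt (h1 a (mem_sdiff.mpr ⟨ha, g2⟩)))
          · intro ha
            exact ⟨hCS ha, by simp [ha]⟩
      · intro f hf
        rw [mem_filter, mem_filter, mem_colS] at hf
        obtain ⟨⟨⟨h1, h2⟩, h3⟩, h4⟩ := hf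
        funext a
        simp only
        split_ifs with g
        · rw [← h4, mem_filter] at g; exact g.2.symm
        · rfl
      · intro f hf
        rw [mem_filter, mem_colS] at hf
        obtain ⟨⟨h1, h2⟩, h3⟩ := hf
        funext a
        simp only
        split_ifs with g
        · symm; apply h2; intro g2; exact (mem_sdiff.mp g2).2 g
        · rfl
      · intro f hf
        rw [mem_filter, mem_filter, mem_colS] at hf
        obtain ⟨⟨⟨h1, h2⟩, h3⟩, h4⟩ := hf
        have hC' : ∀ a ∈ S, (a ∈ C ↔ f a = M) := by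
          intro a ha; rw [← h4, mem_filter]; exact ⟨fun g => g.2, fun g => ⟨ha, g⟩⟩
        rw [asc_split hCS h1 h4, pow_add]
        have e1 : asc h (S \ C) (fun a => if a ∈ C then 0 else f a) = asc h (S \ C) f := by
          apply asc_congr
          intro a ha
          simp [(mem_sdiff.mp ha).2]
        have e2 : ∏ a ∈ S, z (f a) = z M ^ C.card * ∏ a ∈ S \ C, z (if a ∈ C then 0 else f a) := by
          rw [← prod_sdiff hCS, mul_comm]
          congr 1
          · rw [← prod_const]
            apply prod_congr rfl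
            intro a ha
            rw [(hC' a (hCS ha)).mp ha]
          · apply prod_congr rfl
            intro a ha
            rw [if_neg (mem_sdiff.mp ha).2]
        rw [e1, e2]; ring
    · symm
      apply sum_eq_zero
      intro f hf
      exfalso
      rw [mem_filter, mem_filter, mem_colS] at hf
      obtain ⟨⟨⟨h1, h2⟩, h3⟩, h4⟩ := hf
      apply hst
      intro a ha b hb hab
      have ga := ha
      have gb := hb
      rw [← h4, mem_filter] at ga gb
      exact h3 a ga.1 b gb.1 hab (ga.2.trans gb.2.symm)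

/-- the variables `X 0, ..., X (N-1)`, then `0`. -/
noncomputable def zX (N : ℕ) (i : ℕ) : MvPolynomial (Fin N) (Polynomial ℤ) :=
  if hi : i < N then MvPolynomial.X ⟨i, hi⟩ else 0

theorem zX_val {N : ℕ} (i : Fin N) : zX N i.val = MvPolynomial.X i := by
  unfold zX; rw [dif_pos i.isLt]

theorem chromatic_eq_XN (h : Fin n → ℕ) (N : ℕ) :
    chromaticQSym h N = XN h (MvPolynomial.C Polynomial.X) (zX N) N univ := by
  rw [XN_eq_sum]
  unfold chromaticQSym
  refine sum_bij' (fun f _ => fun a => (f a).val)
    (fun f hf => fun a => ⟨f a, ?_⟩) ?_ ?_ ?_ ?_ ?_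
  · rw [mem_filter, mem_colS] at hf
    exact hf.1.1 a (mem_univ _)
  · intro f hf
    rw [mem_filter] at hf
    rw [mem_filter, mem_colS]
    refine ⟨⟨fun a _ => (f a).isLt, fun a ha => absurd (mem_univ _) ha⟩, ?_⟩
    intro a _ b _ hab he
    exact hf.2 a b (Or.inl ⟨hab.1, hab.2⟩) (Fin.ext he)
  · intro f hf
    rw [mem_filter, mem_colS] at hf
    rw [mem_filter]
    refine ⟨mem_univ _, ?_⟩
    intro a b hab he
    have he' : f a = f b := by simpa [Fin.ext_iff] using he
    rcases hab with hab | hab
    · exact hf.2 a (mem_univ _) b (mem_univ _) ⟨hab.1, hab.2⟩ he'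
    · exact hf.2 b (mem_univ _) a (mem_univ _) ⟨hab.1, hab.2⟩ he'.symm
  · intro f hf; rfl
  · intro f hf; rfl
  · intro f hf
    congr 1
    · rw [MvPolynomial.C_pow]
      congr 1
      unfold ascents asc
      congr 1
      ext ⟨a, b⟩
      simp only [mem_filter, mem_univ, true_and, mem_product, adj, IsEdge, Fin.lt_def]
      constructor
      · rintro ⟨h1, h2, h3⟩
        refine ⟨⟨h1, ?_⟩, h3⟩
        rcases h2 with h2 | h2
        · exact h2.2
        · omega
      · rintro ⟨⟨h1, h2⟩, h3⟩
        exact ⟨h1, Or.inl ⟨h1, h2⟩, h3⟩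
    · apply prod_congr rfl
      intro a _
      rw [zX_val]

end Crest.Agent.R59.FL321
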