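import Crest.Agent.R59.FL321b

/-! R59: the literal `chromaticQSym` as the `e`-recursion `XE`, and the universal form
`EPos_of_coeff_nonneg` (helper321). -/

set_option autoImplicit false
set_option linter.unusedSectionVars false

namespace Crest.Agent.R59.FL321

open Finset Crest.Agent.R59.Def638 Crest.Agent.R59.Link321
open Crest.CombinatoricsR.UnitInterval

variable {n : ℕ} {h : Fin n → ℕ}

theorem ez_eq_sum {A : Type*} [CommRing A] (z : ℕ → A) (N : ℕ) : ∀ k : ℕ,
    ez z N k = ∑ t ∈ powersetCard k (range N), ∏ i ∈ t, z i := by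
  induction N with
  | zero =>
    intro k
    cases k with
    | zero => simp [ez]
    | succ k =>
      have h1 : powersetCard (k + 1) (range 0) = ∅ := by
        rw [powersetCard_eq_empty]; simp
      rw [h1]
      simp only [ez, sum_empty]
      rw [if_neg]; push_cast; omega
  | succ N ih =>
    intro k
    cases k with
    | zero =>
      simp [ez_zero]
    | succ k =>
      have e1 : (((k + 1 : ℕ) : ℤ) - 1) = (k : ℕ) := by push_cast; ring
      have hN : N ∉ range N := by simp
      rw [ez, e1, ih (k + 1), ih k, Finset.range_add_one, powersetCard_succ_insert hN,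
        sum_union, sum_image]
      · congr 1
        rw [mul_sum]
        apply sum_congr rfl
        intro t ht
        rw [mem_powersetCard] at ht
        rw [prod_insert]
        intro hNt
        exact hN (ht.1 hNt)
      · intro s hs t ht hst
        rw [mem_coe, mem_powersetCard] at hs ht
        have h1 : N ∉ s := fun g => hN (hs.1 g)
        have h2 : N ∉ t := fun g => hN (ht.1 g)
        rw [← erase_insert h1, ← erase_insert h2]
        exact congrArg (fun X => X.erase N) hst
      · rw [disjoint_left]
        intro s hs hs2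
        rw [mem_powersetCard] at hs
        rw [mem_image] at hs2
        obtain ⟨t, _, rfl⟩ := hs2
        exact hN (hs.1 (mem_insert_self _ _))

theorem ez_zX (N k : ℕ) : ez (zX N) N k = MvPolynomial.esymm (Fin N) (Polynomial ℤ) k := by
  rw [ez_eq_sum, MvPolynomial.esymm]
  have h1 : range N = (univ : Finset (Fin N)).map Fin.valEmbedding := by
    rw [Fin.map_valEmbedding_univ]; ext; simp
  rw [h1, powersetCard_map, sum_map]
  apply sum_congr rfl
  intro t _
  have h2 : (mapEmbedding Fin.valEmbedding).toEmbedding t = t.map Fin.valEmbedding := rfl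
  rw [h2, prod_map]
  apply prod_congr rfl
  intro i _
  exact zX_val i

theorem XE_congr {A : Type*} [CommRing A] (q : A) {e e' : ℕ → A}
    (he : ∀ k, 1 ≤ k → e k = e' k) (S : Finset (Fin n)) : XE h q e S = XE h q e' S := by
  revert S
  apply eq_XE_of_rec q e' (fun S => XE h q e S)
  · exact XE_empty h q e
  · intro m U hU
    have hmU : m ∉ U := fun h => lt_irrefl _ (hU m h)
    rw [XE_eq h q e _ (insert_ne_empty m U), sum_blocks m U hU]
    apply sum_congr rfl
    intro C hC
    rw [sdiff_bs hmU (mem_powerset.mp hC), he]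
    exact card_pos.mpr ⟨m, bs_mem m U C⟩

/-- **the literal chromatic quasisymmetric function is the `e`-recursion.** -/
theorem chromatic_eq_XE (hm : Monotone h) (N : ℕ) :
    chromaticQSym h N = XE h (MvPolynomial.C Polynomial.X)
      (fun k => MvPolynomial.esymm (Fin N) (Polynomial ℤ) k) univ := by
  have h0 : (MvPolynomial.C (Polynomial.X : Polynomial ℤ) : MvPolynomial (Fin N) (Polynomial ℤ)) ≠ 0 := by
    rw [Ne, MvPolynomial.C_eq_zero]; exact Polynomial.X_ne_zero
  have h1 : (MvPolynomial.C (Polynomial.X : Polynomial ℤ) : MvPolynomial (Fin N) (Polynomial ℤ)) ≠ 1 := by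
    rw [Ne, ← MvPolynomial.C_1, MvPolynomial.C_inj]
    intro hx
    have := congrArg (fun p => Polynomial.coeff p 0) hx
    simp at this
  rw [chromatic_eq_XN, XN_eq_XE hm _ h0 h1]
  apply XE_congr
  intro k _
  exact ez_zX N k

/-- generic `e`'s: `e_k = X (k-1)` (`k ≥ 1`) -/
noncomputable def genE (k : ℕ) : MvPolynomial ℕ (Polynomial ℤ) := MvPolynomial.X (k - 1)

/-- the generic recursion, in `ℤ[q][e_1, e_2, ...]` -/
noncomputable def GX (h : Fin n → ℕ) (S : Finset (Fin n)) : MvPolynomial ℕ (Polynomial ℤ) :=
  XE h (MvPolynomial.C Polynomial.X) genE S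

/-- specialisation `e_k ↦ e_k(x_0, ..., x_{N-1})` -/
noncomputable def spec (N : ℕ) :
    MvPolynomial ℕ (Polynomial ℤ) →+* MvPolynomial (Fin N) (Polynomial ℤ) :=
  MvPolynomial.eval₂Hom MvPolynomial.C
    (fun i => MvPolynomial.esymm (Fin N) (Polynomial ℤ) (i + 1))

theorem chromatic_eq_spec (hm : Monotone h) (N : ℕ) :
    chromaticQSym h N = spec N (GX h univ) := by
  rw [chromatic_eq_XE hm, GX, map_XE]
  have h1 : spec N (MvPolynomial.C Polynomial.X) = MvPolynomial.C Polynomial.X := by
    simp [spec]
  rw [h1]
  apply XE_congr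
  intro k hk
  have h2 : k - 1 + 1 = k := by omega
  simp [spec, genE, h2]

/-- weights -/
def wt (i : ℕ) : ℕ := i + 1

theorem GX_homog : ∀ S : Finset (Fin n),
    MvPolynomial.IsWeightedHomogeneous wt (GX h S) S.card := by
  intro S
  induction S using Finset.strongInduction with
  | H S ih =>
    by_cases hS : S = ∅
    · subst hS
      rw [GX, XE_empty, card_empty]
      exact MvPolynomial.isWeightedHomogeneous_one _ _
    · obtain ⟨m, U, rfl, hU⟩ := exists_min S hS
      have hmU : m ∉ U := fun h => lt_irrefl _ (hU m h)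
      rw [GX, XE_eq _ _ _ _ hS, sum_blocks m U hU]
      apply MvPolynomial.IsWeightedHomogeneous.sum
      intro C hC
      have hCU := mem_powerset.mp hC
      rw [sdiff_bs hmU hCU]
      have hcf : cf h (MvPolynomial.C (Polynomial.X : Polynomial ℤ) : MvPolynomial ℕ (Polynomial ℤ)) (insert m U) (bs m U C)
          = MvPolynomial.C (cf h Polynomial.X (insert m U) (bs m U C)) := by
        rw [← map_cf (MvPolynomial.C : Polynomial ℤ →+* MvPolynomial ℕ (Polynomial ℤ))]
      rw [hcf]
      have hb : 1 ≤ (bs m U C).card := card_pos.mpr ⟨m, bs_mem m U C⟩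
      have e1 : MvPolynomial.IsWeightedHomogeneous wt (genE (bs m U C).card) (bs m U C).card := by
        have := MvPolynomial.isWeightedHomogeneous_X (Polynomial ℤ) wt ((bs m U C).card - 1)
        have e2 : wt ((bs m U C).card - 1) = (bs m U C).card := by unfold wt; omega
        rw [e2] at this
        exact this
      have e3 := ih C (lt_of_le_of_lt hCU (ssubset_insert hmU))
      have e4 : (insert m U).card = 0 + (bs m U C).card + C.card := by
        have h5 := sdiff_bs hmU hCU
        have h6 : bs m U C ⊆ insert m U := by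
          unfold bs; exact insert_subset_insert _ sdiff_subset
        have h7 := card_sdiff_add_card_eq_card h6
        rw [h5] at h7; omega
      rw [e4]
      exact ((MvPolynomial.isWeightedHomogeneous_C _ _).mul e1).mul e3

open Crest.Agent.R059 in
theorem EP_pow {k : ℕ} {F : Fam} (hF : EP k F) (m : ℕ) : EP (m * k) (fun N => F N ^ m) := by
  induction m with
  | zero => exact EP.one.congr (by ring) (fun N => by simp)
  | succ m ih => exact (ih.mul hF).congr (by ring) (fun N => by rw [pow_succ])

open Crest.Agent.R059 in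
theorem EP_prod {ι : Type*} (s : Finset ι) (k : ι → ℕ) (F : ι → Fam)
    (hF : ∀ i ∈ s, EP (k i) (F i)) : EP (∑ i ∈ s, k i) (fun N => ∏ i ∈ s, F i N) := by
  classical
  induction s using Finset.induction_on with
  | empty => exact EP.one.congr (by simp) (fun N => by simp)
  | insert a s ha ih =>
    exact ((hF a (mem_insert_self _ _)).mul (ih (fun i hi => hF i (mem_insert_of_mem hi)))).congr
      (by rw [sum_insert ha]) (fun N => by rw [prod_insert ha])

open Crest.Agent.R059 in
/-- a weighted homogeneous polynomial of degree `n` in the generic `e`'s with coefficients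
in `ℕ[q]` gives an `e`-positive family -/
theorem EP_of_generic (P : MvPolynomial ℕ (Polynomial ℤ))
    (hP : MvPolynomial.IsWeightedHomogeneous wt P n)
    (hc : ∀ (d : ℕ →₀ ℕ) (k : ℕ), 0 ≤ (P.coeff d).coeff k) :
    EP n (fun N => spec N P) := by
  have h1 : EP n (fun N => ∑ d ∈ P.support, MvPolynomial.C (P.coeff d) *
      ∏ i ∈ d.support, (MvPolynomial.esymm (Fin N) (Polynomial ℤ) (i + 1)) ^ d i) := by
    apply EP.sum
    intro d hd
    apply EP.smul' _ (Crest.Agent.R059.Stab.exists_cast _ (hc d))
    have h2 := EP_prod d.support (fun i => d i * (i + 1))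
      (fun i N => (MvPolynomial.esymm (Fin N) (Polynomial ℤ) (i + 1)) ^ d i)
      (fun i _ => EP_pow (EP.esymm (i + 1)) (d i))
    refine h2.congr ?_ (fun _ => rfl)
    have h3 := hP (MvPolynomial.mem_support_iff.mp hd)
    rw [← h3, Finsupp.weight_apply, Finsupp.sum]
    rfl
  refine h1.congr rfl (fun N => ?_)
  conv_lhs => rw [P.as_sum]
  rw [map_sum]
  apply sum_congr rfl
  intro d _
  rw [spec, MvPolynomial.eval₂Hom_monomial]
  rfl

open Crest.Agent.R059 in
/-- **interface**: if all coefficients of the generic recursion are in `ℕ[q]`, then `EPos h`. -/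
theorem EPos_of_coeff_nonneg (hm : Monotone h)
    (hc : ∀ (d : ℕ →₀ ℕ) (k : ℕ), 0 ≤ ((GX h univ).coeff d).coeff k) : EPos h := by
  rw [EPos_iff]
  have h1 := EP_of_generic (GX h univ) (GX_homog univ) hc
  refine h1.congr (by simp) (fun N => chromatic_eq_spec hm N)

end Crest.Agent.R59.FL321
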