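import Crest.Agent.R59.Skew613
import Mathlib.RingTheory.PowerSeries.Basic
import Mathlib.RingTheory.PowerSeries.Inverse

/-! R59 (S0081), line A: the multi-shift identity (K_c) (lead #14940), for any integer form. -/

set_option autoImplicit false

namespace Crest.Agent.R59.KC613

open Finset Link321 Skew613

open PowerSeries (C X rescale)

section P

variable {K : Type*} [CommRing K] (v : Kˣ)

/-- `z ↦ v^b z`. -/
noncomputable def rs (b : ℤ) : PowerSeries K →+* PowerSeries K := rescale (V v b)

theorem rs_zero (f : PowerSeries K) : rs v 0 f = f := by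
  unfold rs; rw [V_zero, PowerSeries.rescale_one]; rfl

theorem rs_rs (a b : ℤ) (f : PowerSeries K) : rs v a (rs v b f) = rs v (a + b) f := by
  unfold rs; rw [PowerSeries.rescale_rescale, V_add, mul_comm]

theorem rs_C (b : ℤ) (k : K) : rs v b (C k) = C k := by
  unfold rs
  ext n
  rw [PowerSeries.coeff_rescale, PowerSeries.coeff_C]
  split_ifs with h
  · simp [h]
  · simp

theorem rs_X (b : ℤ) : rs v b X = C (V v b) * X := PowerSeries.rescale_X _

theorem rs_CX (b : ℤ) (k : K) : rs v b (1 + C k * X) = 1 + C (k * V v b) * X := by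
  rw [map_add, map_one, map_mul, rs_X, rs_C, map_mul]
  ring

/-- `1 + k z` has an inverse. -/
theorem inv_spec (k : K) :
    (1 + C k * X : PowerSeries K) * PowerSeries.invOfUnit (1 + C k * X) 1 = 1 := by
  apply PowerSeries.mul_invOfUnit
  simp

noncomputable def Pn : ℕ → PowerSeries K
  | 0 => 1
  | m + 1 => rs v 1 (Pn m) * (1 + C (V v (-(m : ℤ))) * X)

noncomputable def Pg : ℕ → PowerSeries K
  | 0 => 1
  | m + 1 => rs v (-1) (Pg m * PowerSeries.invOfUnit (1 + C (V v ((m : ℤ) + 1)) * X) 1)

/-- `P_m(z) = ∏_{i=1}^m (1 + v^{m+1-2i} z)` for `m ≥ 0`, `1 / P_{-m}` for `m < 0`. -/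
noncomputable def P : ℤ → PowerSeries K
  | Int.ofNat m => Pn v m
  | Int.negSucc m => Pg v (m + 1)

theorem P_zero : P v 0 = 1 := rfl

theorem P_succ (b : ℤ) : P v (b + 1) = rs v 1 (P v b) * (1 + C (V v (-b)) * X) := by
  cases b with
  | ofNat m => rfl
  | negSucc m =>
    have h1 : Int.negSucc m + 1 = -(m : ℤ) := by omega
    have h2 : P v (-(m : ℤ)) = Pg v m := by
      cases m with
      | zero => rfl
      | succ m => rfl
    have h3 : -Int.negSucc m = (m : ℤ) + 1 := by omega
    rw [h1, h2, h3]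
    show _ = rs v 1 (rs v (-1) (Pg v m * _)) * _
    rw [rs_rs, show (1 : ℤ) + -1 = 0 by norm_num, rs_zero, mul_assoc,
      mul_comm (PowerSeries.invOfUnit _ _), inv_spec, mul_one]

theorem P_cocycle (a b : ℤ) : P v (a + b) = rs v b (P v a) * rs v (-a) (P v b) := by
  induction b using Int.induction_on with
  | zero => rw [add_zero, rs_zero, P_zero, map_one, mul_one]
  | succ n ih =>
    rw [← add_assoc, P_succ, ih, map_mul, rs_rs, rs_rs, P_succ v n, map_mul, rs_rs, rs_CX,
      ← V_add]
    rw [show (1 : ℤ) + n = n + 1 by ring, show (1 : ℤ) + -a = -a + 1 by ring,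
      show -(n : ℤ) + -a = -(a + n) by ring]
    ring
  | pred n ih =>
    have e1 : a + -(n : ℤ) = (a + (-(n : ℤ) - 1)) + 1 := by ring
    have e2 : -(n : ℤ) = (-(n : ℤ) - 1) + 1 := by ring
    rw [e1, P_succ] at ih
    rw [show P v (-(n : ℤ)) = P v ((-(n : ℤ) - 1) + 1) by rw [← e2], P_succ, map_mul, rs_rs,
      rs_CX, ← V_add] at ih
    have e3 : -(-(n : ℤ) - 1) + -a = -(a + (-(n : ℤ) - 1)) := by ring
    rw [e3] at ih
    have h := inv_spec (K := K) (V v (-(a + (-(n : ℤ) - 1))))
    have ih2 : rs v 1 (P v (a + (-(n : ℤ) - 1))) =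
        rs v (-(n : ℤ)) (P v a) * rs v (-a + 1) (P v (-(n : ℤ) - 1)) := by
      calc rs v 1 (P v (a + (-(n : ℤ) - 1))) = (rs v 1 (P v (a + (-(n : ℤ) - 1))) *
            (1 + C (V v (-(a + (-(n : ℤ) - 1)))) * X)) *
            PowerSeries.invOfUnit (1 + C (V v (-(a + (-(n : ℤ) - 1)))) * X) 1 := by
              rw [mul_assoc, h, mul_one]
        _ = _ := by rw [ih, mul_assoc, mul_assoc, h, mul_one]
    have h3 := congrArg (rs v (-1)) ih2
    rw [rs_rs, map_mul, rs_rs, rs_rs] at h3
    norm_num at h3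
    rw [rs_zero] at h3
    rw [h3]
    congr 2
    · congr 1; ring
    
end P

section Ave

variable {α : Type*} [LinearOrder α] [Fintype α]
variable {K : Type*} [CommRing K] (v : Kˣ)

/-- `s_w ≤ D_w` on `S`, `0` outside. -/
def box (D : α → ℕ) (S : Finset α) : Finset (α → ℕ) :=
  Fintype.piFinset (fun w => if w ∈ S then range (D w + 1) else {0})

theorem mem_box {D : α → ℕ} {S : Finset α} {s : α → ℕ} :
    s ∈ box D S ↔ (∀ w ∈ S, s w ≤ D w) ∧ ∀ w, w ∉ S → s w = 0 := by
  unfold box
  rw [Fintype.mem_piFinset]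
  constructor
  · intro h
    refine ⟨fun w hw => ?_, fun w hw => ?_⟩
    · have := h w
      rw [if_pos hw, mem_range] at this
      omega
    · have := h w
      rw [if_neg hw, mem_singleton] at this
      exact this
  · rintro ⟨h1, h2⟩ w
    by_cases hw : w ∈ S
    · rw [if_pos hw, mem_range]
      have := h1 w hw
      omega
    · rw [if_neg hw, mem_singleton]
      exact h2 w hw

theorem box_split {M : Type*} [AddCommMonoid M] (D : α → ℕ) {B U : Finset α} (h : Disjoint B U)
    (F : (α → ℕ) → M) :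
    ∑ s ∈ box D (B ∪ U), F s = ∑ s ∈ box D B, ∑ t ∈ box D U, F (s + t) := by
  rw [← sum_product']
  symm
  apply sum_nbij' (fun p => p.1 + p.2)
    (fun s => (fun w => if w ∈ B then s w else 0, fun w => if w ∈ U then s w else 0))
  · rintro ⟨s, t⟩ hst
    rw [mem_product, mem_box, mem_box] at hst
    obtain ⟨⟨h1, h2⟩, h3, h4⟩ := hst
    rw [mem_box]
    refine ⟨fun w hw => ?_, fun w hw => ?_⟩
    · rcases mem_union.1 hw with hB | hU
      · have := h4 w (disjoint_left.1 h hB)
        have h5 := h1 w hB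
        simp only [Pi.add_apply] at *
        omega
      · have := h2 w (disjoint_right.1 h hU)
        have h5 := h3 w hU
        simp only [Pi.add_apply] at *
        omega
    · rw [mem_union, not_or] at hw
      have a1 := h2 w hw.1
      have a2 := h4 w hw.2
      simp only [Pi.add_apply] at *
      omega
  · intro s hs
    rw [mem_box] at hs
    rw [mem_product, mem_box, mem_box]
    refine ⟨⟨fun w hw => ?_, fun w hw => ?_⟩, fun w hw => ?_, fun w hw => ?_⟩
    · simp only [if_pos hw]; exact hs.1 w (mem_union_left _ hw)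
    · simp only [if_neg hw]
    · simp only [if_pos hw]; exact hs.1 w (mem_union_right _ hw)
    · simp only [if_neg hw]
  · rintro ⟨s, t⟩ hst
    rw [mem_product, mem_box, mem_box] at hst
    obtain ⟨⟨h1, h2⟩, h3, h4⟩ := hst
    simp only at h1 h2 h3 h4
    ext w
    · simp only [Pi.add_apply]
      by_cases hw : w ∈ B
      · rw [if_pos hw, h4 w (disjoint_left.1 h hw), add_zero]
      · rw [if_neg hw, h2 w hw]
    · simp only [Pi.add_apply]
      by_cases hw : w ∈ U
      · rw [if_pos hw, h2 w (disjoint_right.1 h hw), zero_add]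
      · rw [if_neg hw, h4 w hw]
  · intro s hs
    rw [mem_box] at hs
    ext w
    simp only [Pi.add_apply]
    by_cases hB : w ∈ B
    · rw [if_pos hB, if_neg (disjoint_left.1 h hB), add_zero]
    · by_cases hU : w ∈ U
      · rw [if_neg hB, if_pos hU, zero_add]
      · rw [if_neg hB, if_neg hU, hs.2 w (by rw [mem_union, not_or]; exact ⟨hB, hU⟩)]
  · intro p _; rfl

/-- total shift on `S`. -/
def dS (S : Finset α) (s : α → ℕ) : ℕ := ∑ w ∈ S, s w

def wt (g : α → ℕ → K) (S : Finset α) (s : α → ℕ) : K := ∏ w ∈ S, g w (s w)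

/-- weighted average over all shifts of the letters of `S`. -/
noncomputable def Av (D : α → ℕ) (g : α → ℕ → K) (S : Finset α) (F : (α → ℕ) → K) :
    PowerSeries K := ∑ s ∈ box D S, C (wt g S s * F s) * X ^ dS S s

theorem Av_congr {D : α → ℕ} {g : α → ℕ → K} {S : Finset α} {F G : (α → ℕ) → K}
    (h : ∀ s ∈ box D S, F s = G s) : Av D g S F = Av D g S G :=
  sum_congr rfl fun s hs => by rw [h s hs]

theorem Av_sub (D : α → ℕ) (g : α → ℕ → K) (S : Finset α) (F G : (α → ℕ) → K) :
    Av D g S (fun s => F s - G s) = Av D g S F - Av D g S G := by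
  unfold Av
  rw [← sum_sub_distrib]
  apply sum_congr rfl
  intro s _
  rw [mul_sub, map_sub, sub_mul]

theorem Av_smul (D : α → ℕ) (g : α → ℕ → K) (S : Finset α) (k : K) (F : (α → ℕ) → K) :
    Av D g S (fun s => k * F s) = C k * Av D g S F := by
  unfold Av
  rw [mul_sum]
  apply sum_congr rfl
  intro s _
  simp only [map_mul]
  ring

theorem Av_sum {ι : Type*} (T : Finset ι) (D : α → ℕ) (g : α → ℕ → K) (S : Finset α)
    (F : ι → (α → ℕ) → K) :
    Av D g S (fun s => ∑ i ∈ T, F i s) = ∑ i ∈ T, Av D g S (F i) := by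
  unfold Av
  rw [sum_comm]
  apply sum_congr rfl
  intro s _
  rw [mul_sum, map_sum, sum_mul]

theorem V_pow (b : ℤ) (k : ℕ) : V v b ^ k = V v (b * k) := by
  unfold V
  rw [zpow_mul, zpow_natCast, Units.val_pow_eq_pow_val]

theorem rs_Av (D : α → ℕ) (g : α → ℕ → K) (S : Finset α) (b : ℤ) (F : (α → ℕ) → K) :
    rs v b (Av D g S F) = Av D g S (fun s => V v (b * dS S s) * F s) := by
  unfold Av
  rw [map_sum]
  apply sum_congr rfl
  intro s _
  rw [map_mul, rs_C, map_pow, rs_X, mul_pow, ← map_pow, V_pow, ← mul_assoc, ← map_mul]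
  congr 2; ring

theorem Av_split (D : α → ℕ) (g : α → ℕ → K) {B U : Finset α} (h : Disjoint B U)
    (F G : (α → ℕ) → K) (hF : ∀ s t, (∀ w ∈ B, s w = t w) → F s = F t)
    (hG : ∀ s t, (∀ w ∈ U, s w = t w) → G s = G t) (y b r : ℤ) :
    Av D g (B ∪ U) (fun s => V v (y + b * dS B s + r * dS U s) * (F s * G s)) =
      C (V v y) * (rs v b (Av D g B F) * rs v r (Av D g U G)) := by
  rw [rs_Av, rs_Av]
  unfold Av
  rw [box_split D h, sum_mul_sum, mul_sum]
  apply sum_congr rfl
  intro s hs
  rw [mul_sum]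
  apply sum_congr rfl
  intro t ht
  rw [mem_box] at hs ht
  have hB : ∀ w ∈ B, (s + t) w = s w := fun w hw => by
    rw [Pi.add_apply, ht.2 w (disjoint_left.1 h hw), add_zero]
  have hU : ∀ w ∈ U, (s + t) w = t w := fun w hw => by
    rw [Pi.add_apply, hs.2 w (disjoint_right.1 h hw), zero_add]
  have e1 : dS B (s + t) = dS B s := sum_congr rfl hB
  have e2 : dS U (s + t) = dS U t := sum_congr rfl hU
  have e3 : dS (B ∪ U) (s + t) = dS B s + dS U t := by
    unfold dS at *
    rw [sum_union h, e1, e2]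
  have e4 : wt g (B ∪ U) (s + t) = wt g B s * wt g U t := by
    unfold wt
    rw [prod_union h]
    congr 1
    · exact prod_congr rfl fun w hw => by rw [hB w hw]
    · exact prod_congr rfl fun w hw => by rw [hU w hw]
  beta_reduce
  rw [e1, e2, e3, e4, hF (s + t) s hB, hG (s + t) t hU, pow_add, V_add, V_add]
  simp only [map_mul]
  ring

/-- all letters shifted: `w` becomes `w + s_w c`, `⟨c, c⟩ = 0`. -/
def shf (a : α → α → ℤ) (c : α → ℤ) (s : α → ℕ) (x y : α) : ℤ :=
  a x y + s x * c y - s y * c x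

theorem sp_shf (a : α → α → ℤ) (c : α → ℤ) (s : α → ℕ) (A B : Finset α) :
    sp (shf a c s) A B = sp a A B + (∑ y ∈ B, c y) * dS A s + (-∑ x ∈ A, c x) * dS B s := by
  unfold sp shf dS
  simp only [sum_sub_distrib, sum_add_distrib, ← mul_sum, ← sum_mul]
  push_cast
  ring

theorem sp_shf_congr (a : α → α → ℤ) (c : α → ℤ) {s t : α → ℕ} {A B : Finset α}
    (hA : ∀ w ∈ A, s w = t w) (hB : ∀ w ∈ B, s w = t w) :
    sp (shf a c s) A B = sp (shf a c t) A B := by
  apply sp_congr
  intro x hx y hy
  unfold shf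
  rw [hA x hx, hB y hy]

theorem TS_shf_congr (a : α → α → ℤ) (c : α → ℤ) {s t : α → ℕ} {m : α} {B : Finset α}
    (h : ∀ w ∈ insert m B, s w = t w) : TS v (shf a c s) m B = TS v (shf a c t) m B := by
  apply TS_congr
  intro x hx y hy
  unfold shf
  rw [h x hx, h y hy]

theorem XS_shf_congr (e : ℕ → K) (a : α → α → ℤ) (c : α → ℤ) {s t : α → ℕ} {B : Finset α}
    (h : ∀ w ∈ B, s w = t w) : XS v e (shf a c s) B = XS v e (shf a c t) B := by
  apply XS_congr
  intro x hx y hy
  unfold shf
  rw [h x hx, h y hy]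

/-- the weight series of one letter. -/
noncomputable def gs (D : α → ℕ) (g : α → ℕ → K) (w : α) : PowerSeries K :=
  ∑ i ∈ range (D w + 1), C (g w i) * X ^ i

theorem Av_single (D : α → ℕ) (g : α → ℕ → K) (w : α) :
    Av D g {w} (fun _ => 1) = gs D g w := by
  unfold Av gs
  apply sum_nbij' (fun s => s w) (fun i => fun u => if u = w then i else 0)
  · intro s hs
    rw [mem_box] at hs
    rw [mem_range]
    have := hs.1 w (mem_singleton_self w)
    omega
  · intro i hi
    rw [mem_range] at hi
    rw [mem_box]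
    refine ⟨fun u hu => ?_, fun u hu => ?_⟩
    · rw [mem_singleton] at hu; rw [if_pos hu, hu]; omega
    · rw [mem_singleton] at hu; rw [if_neg hu]
  · intro s hs
    rw [mem_box] at hs
    ext u
    by_cases hu : u = w
    · rw [if_pos hu, hu]
    · rw [if_neg hu, hs.2 u (by rw [mem_singleton]; exact hu)]
  · intro i _
    simp
  · intro s _
    simp [wt, dS]

theorem Reg_ps {v : Kˣ} (hreg : Reg v) (f g : PowerSeries K)
    (h : C (V v 1 - V v (-1)) * f = C (V v 1 - V v (-1)) * g) : f = g := by
  ext n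
  apply hreg
  have := congrArg (PowerSeries.coeff n) h
  rwa [PowerSeries.coeff_C_mul, PowerSeries.coeff_C_mul] at this

/-- one bracket `[y + b |s_B| + r |s_U|]` splits into two exponentials. -/
theorem Av_bracket (D : α → ℕ) (g : α → ℕ → K) {B U : Finset α} (h : Disjoint B U)
    (F G : (α → ℕ) → K) (hF : ∀ s t, (∀ w ∈ B, s w = t w) → F s = F t)
    (hG : ∀ s t, (∀ w ∈ U, s w = t w) → G s = G t) (y b r : ℤ) :
    C (V v 1 - V v (-1)) * Av D g (B ∪ U)
        (fun s => qi v (y + b * dS B s + r * dS U s) * (F s * G s)) =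
      C (V v y) * (rs v b (Av D g B F) * rs v r (Av D g U G)) -
        C (V v (-y)) * (rs v (-b) (Av D g B F) * rs v (-r) (Av D g U G)) := by
  rw [← Av_split v D g h F G hF hG y b r, ← Av_split v D g h F G hF hG (-y) (-b) (-r), ← Av_sub,
    ← Av_smul]
  apply Av_congr
  intro s _
  beta_reduce
  rw [← mul_assoc, qi_mul, sub_mul]
  congr 3
  ring

/-- if the brackets of two weight systems have averages with ratio `P`, the averages of the
product have. -/
theorem Av_bracket_ratio {v : Kˣ} (hreg : Reg v) (D D' : α → ℕ) (g g' : α → ℕ → K)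
    {B U : Finset α}
    (h : Disjoint B U)
    (F G : (α → ℕ) → K) (hF : ∀ s t, (∀ w ∈ B, s w = t w) → F s = F t)
    (hG : ∀ s t, (∀ w ∈ U, s w = t w) → G s = G t) (y cB cU : ℤ)
    (hB : Av D g B F = P v cB * Av D' g' B F) (hU : Av D g U G = P v cU * Av D' g' U G) :
    Av D g (B ∪ U) (fun s => qi v (y + cU * dS B s + (-cB) * dS U s) * (F s * G s)) =
      P v (cB + cU) *
        Av D' g' (B ∪ U) (fun s => qi v (y + cU * dS B s + (-cB) * dS U s) * (F s * G s)) := by
  apply Reg_ps hreg
  have hR := Av_bracket v D' g' h F G hF hG y cU (-cB)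
  rw [Av_bracket v D g h F G hF hG, hB, hU]
  have c1 := P_cocycle v cB cU
  have c2 := P_cocycle v cU cB
  rw [add_comm cU cB] at c2
  simp only [map_mul, neg_neg] at hR ⊢
  have e1 : rs v cU (P v cB) * rs v (-cB) (P v cU) = P v (cB + cU) := c1.symm
  have e2 : rs v cB (P v cU) * rs v (-cU) (P v cB) = P v (cB + cU) := c2.symm
  linear_combination (C (V v y) * rs v cU (Av D' g' B F) * rs v (-cB) (Av D' g' U G)) * e1 -
    (C (V v (-y)) * rs v (-cU) (Av D' g' B F) * rs v cB (Av D' g' U G)) * e2 -
    P v (cB + cU) * hR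

end Ave

section KC

variable {α : Type*} [LinearOrder α] [Fintype α]
variable {K : Type*} [CommRing K] {v : Kˣ}

theorem Av_TS (hreg : Reg v) (D D' : α → ℕ) (g g' : α → ℕ → K) (a : α → α → ℤ) (c : α → ℤ)
    (m : α) (B : Finset α) (hB : ∀ u ∈ B, m < u)
    (hg : ∀ w ∈ insert m B, gs D g w = P v (c w) * gs D' g' w) :
    Av D g (insert m B) (fun s => TS v (shf a c s) m B) =
      P v (∑ w ∈ insert m B, c w) * Av D' g' (insert m B) (fun s => TS v (shf a c s) m B) := by
  induction B using Finset.induction_on_max with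
  | empty =>
    have : ∀ s : α → ℕ, TS v (shf a c s) m ∅ = 1 := fun s => by simp [TS]
    simp only [this, insert_empty_eq, Av_single, sum_singleton]
    exact hg m (by simp)
  | insert w B hmax ih =>
    have hw : w ∉ B := fun h => lt_irrefl _ (hmax w h)
    have hmw : m < w := hB w (mem_insert_self _ _)
    have hwS : w ∉ insert m B := by
      rw [mem_insert]; rintro (h | h)
      · exact absurd h hmw.ne'
      · exact hw h
    have hdis : Disjoint (insert m B) {w} := disjoint_singleton_right.2 hwS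
    have hun : insert m (insert w B) = insert m B ∪ {w} := by
      rw [Finset.insert_comm, insert_eq w, union_comm]
    have ih' := ih (fun u hu => hB u (mem_insert_of_mem hu))
      (fun u hu => hg u (by rw [hun]; exact mem_union_left _ hu))
    have key : ∀ s : α → ℕ, TS v (shf a c s) m (insert w B) =
        qi v (sp a (insert m B) {w} + c w * dS (insert m B) s +
          (-∑ x ∈ insert m B, c x) * dS {w} s) * (TS v (shf a c s) m B * 1) := by
      intro s
      rw [TS_insert v _ m w B hmax, sp_shf, sum_singleton, mul_one]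
    simp only [key]
    rw [hun]
    have hfin := Av_bracket_ratio hreg D D' g g' hdis (fun s => TS v (shf a c s) m B)
      (fun _ => (1 : K)) (fun s t h => TS_shf_congr v a c h) (fun _ _ _ => rfl)
      (sp a (insert m B) {w}) (∑ x ∈ insert m B, c x) (c w) ih'
      (by rw [Av_single, Av_single]
          exact hg w (by rw [hun]; exact mem_union_right _ (mem_singleton_self w)))
    rw [sum_union hdis, sum_singleton]
    exact hfin

/-- **(K_c)**, full form, any number of shifts of every letter. -/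
theorem Av_XS (hreg : Reg v) (e : ℕ → K) (D D' : α → ℕ) (g g' : α → ℕ → K) (a : α → α → ℤ)
    (c : α → ℤ) (S : Finset α) (hg : ∀ w ∈ S, gs D g w = P v (c w) * gs D' g' w) :
    Av D g S (fun s => XS v e (shf a c s) S) =
      P v (∑ w ∈ S, c w) * Av D' g' S (fun s => XS v e (shf a c s) S) := by
  induction S using Finset.strongInduction with
  | H S ih =>
    rcases S.eq_empty_or_nonempty with rfl | hS
    · simp only [XS_empty, sum_empty, P_zero, one_mul]
      unfold Av
      have hb : ∀ E : α → ℕ, box E (∅ : Finset α) = {0} := by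
        intro E
        ext s
        rw [mem_box, mem_singleton]
        constructor
        · rintro ⟨_, h⟩
          ext w
          exact h w (by simp)
        · rintro rfl
          exact ⟨fun w hw => absurd hw (by simp), fun _ _ => rfl⟩
      rw [hb, hb]
      simp [wt, dS]
    · obtain ⟨m, U, rfl, hU⟩ := exists_min_insert hS
      have hmU : m ∉ U := fun h => lt_irrefl _ (hU m h)
      simp only [XS_insert v e _ m U hU]
      rw [Av_sum, Av_sum, mul_sum]
      apply sum_congr rfl
      intro Q hQ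
      have hQ' := mem_powerset.1 hQ
      have hmQ : m ∉ Q := fun h => hmU (hQ' h)
      have hdis : Disjoint (insert m (U \ Q)) Q := by
        rw [disjoint_insert_left]
        exact ⟨hmQ, sdiff_disjoint⟩
      have hun : insert m U = insert m (U \ Q) ∪ Q := by
        rw [insert_union, sdiff_union_of_subset hQ']
      have key : ∀ s : α → ℕ, e ((bs m U Q).card) * TS v (shf a c s) m (U \ Q) *
          qi v (((bs m U Q).card : ℤ) - sp (shf a c s) (bs m U Q) Q) * XS v e (shf a c s) Q =
          e ((bs m U Q).card) * (qi v (-((-((bs m U Q).card : ℤ) + sp a (insert m (U \ Q)) Q) +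
            (∑ y ∈ Q, c y) * dS (insert m (U \ Q)) s +
            (-∑ x ∈ insert m (U \ Q), c x) * dS Q s)) *
            (TS v (shf a c s) m (U \ Q) * XS v e (shf a c s) Q)) := by
        intro s
        have : ((bs m U Q).card : ℤ) - sp (shf a c s) (bs m U Q) Q =
          -((-((bs m U Q).card : ℤ) + sp a (insert m (U \ Q)) Q) +
            (∑ y ∈ Q, c y) * dS (insert m (U \ Q)) s +
            (-∑ x ∈ insert m (U \ Q), c x) * dS Q s) := by
          rw [sp_shf]
          unfold bs
          ring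
        rw [this]
        ring
      simp only [key, qi_neg]
      have hneg : ∀ (E : α → ℕ) (f : α → ℕ → K), Av E f (insert m U) (fun s =>
          e ((bs m U Q).card) * (-qi v ((-((bs m U Q).card : ℤ) + sp a (insert m (U \ Q)) Q) +
            (∑ y ∈ Q, c y) * dS (insert m (U \ Q)) s +
            (-∑ x ∈ insert m (U \ Q), c x) * dS Q s) *
            (TS v (shf a c s) m (U \ Q) * XS v e (shf a c s) Q))) =
          C (-e ((bs m U Q).card)) * Av E f (insert m (U \ Q) ∪ Q) (fun s =>
          (qi v ((-((bs m U Q).card : ℤ) + sp a (insert m (U \ Q)) Q) +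
            (∑ y ∈ Q, c y) * dS (insert m (U \ Q)) s +
            (-∑ x ∈ insert m (U \ Q), c x) * dS Q s) *
            (TS v (shf a c s) m (U \ Q) * XS v e (shf a c s) Q))) := by
        intro E f
        rw [← Av_smul, hun]
        apply Av_congr
        intro s _
        ring
      rw [hneg, hneg]
      have h1 := Av_TS hreg D D' g g' a c m (U \ Q) (fun u hu => hU u (mem_sdiff.1 hu).1)
        (fun w hw => hg w (by rw [hun]; exact mem_union_left _ hw))
      have h2 := ih Q (lt_of_le_of_lt hQ' (ssubset_insert hmU))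
        (fun w hw => hg w (mem_insert_of_mem (hQ' hw)))
      have hfin := Av_bracket_ratio hreg D D' g g' hdis
        (fun s => TS v (shf a c s) m (U \ Q)) (fun s => XS v e (shf a c s) Q)
        (fun s t h => TS_shf_congr v a c h) (fun s t h => XS_shf_congr v e a c h)
        (-((bs m U Q).card : ℤ) + sp a (insert m (U \ Q)) Q)
        (∑ x ∈ insert m (U \ Q), c x) (∑ y ∈ Q, c y) h1 h2
      have hsum : ∑ w ∈ insert m U, c w = ∑ x ∈ insert m (U \ Q), c x + ∑ y ∈ Q, c y := by
        rw [hun, sum_union hdis]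
      rw [hsum, hfin]
      ring

/-- Gaussian binomial `[m choose i]` (symmetric), as the coefficient of
`∏_{j=1}^m (1 + v^{m+1-2j} z)`. -/
noncomputable def gc (v : Kˣ) (m i : ℕ) : K := PowerSeries.coeff i (Pn v m)

theorem Pn_coeff_high (v : Kˣ) (m : ℕ) : ∀ i, m < i → PowerSeries.coeff i (Pn v m) = 0 := by
  induction m with
  | zero =>
    intro i hi
    rw [Pn, PowerSeries.coeff_one, if_neg (by omega)]
  | succ m ih =>
    intro i hi
    rw [Pn, mul_add, mul_one, map_add]
    obtain ⟨k, rfl⟩ : ∃ k, i = k + 1 := ⟨i - 1, by omega⟩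
    rw [← mul_assoc, PowerSeries.coeff_succ_mul_X, mul_comm _ (C _), PowerSeries.coeff_C_mul]
    unfold rs
    rw [PowerSeries.coeff_rescale, PowerSeries.coeff_rescale, ih (k + 1) (by omega),
      ih k (by omega)]
    simp

theorem gc_zero_zero (v : Kˣ) : gc v 0 0 = 1 := by
  unfold gc Pn
  simp

theorem gc_zero_succ (v : Kˣ) (i : ℕ) : gc v 0 (i + 1) = 0 := by
  unfold gc Pn
  rw [PowerSeries.coeff_one, if_neg (by omega)]

theorem gc_succ_zero (v : Kˣ) (m : ℕ) : gc v (m + 1) 0 = gc v m 0 := by
  unfold gc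
  rw [Pn, mul_add, mul_one, map_add, ← mul_assoc, PowerSeries.coeff_zero_mul_X, add_zero]
  unfold rs
  rw [PowerSeries.coeff_rescale]
  simp

/-- Pascal: `[m+1 choose i+1] = v^(i+1) [m choose i+1] + v^(i-m) [m choose i]`. -/
theorem gc_succ_succ (v : Kˣ) (m i : ℕ) :
    gc v (m + 1) (i + 1) = V v (i + 1) * gc v m (i + 1) + V v ((i : ℤ) - m) * gc v m i := by
  unfold gc
  rw [Pn, mul_add, mul_one, map_add, ← mul_assoc, PowerSeries.coeff_succ_mul_X, mul_comm _ (C _),
    PowerSeries.coeff_C_mul]
  unfold rs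
  rw [PowerSeries.coeff_rescale, PowerSeries.coeff_rescale, V_pow, V_pow, ← mul_assoc, ← V_add]
  congr 3
  · push_cast; ring
  · ring

theorem gs_gc (v : Kˣ) (D : α → ℕ) (w : α) : gs D (fun w i => gc v (D w) i) w = Pn v (D w) := by
  unfold gs
  ext n
  rw [map_sum]
  simp only [PowerSeries.coeff_C_mul, PowerSeries.coeff_X_pow, mul_ite, mul_one, mul_zero]
  rw [sum_ite_eq (range (D w + 1)) n]
  split_ifs with h
  · rfl
  · rw [mem_range] at h
    exact (Pn_coeff_high v _ n (by omega)).symm

theorem P_toNat (v : Kˣ) (c : ℤ) : Pn v c.toNat = P v c * Pn v (-c).toNat := by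
  rcases le_total 0 c with h | h
  · obtain ⟨m, rfl⟩ := Int.eq_ofNat_of_zero_le h
    have : (-(m : ℤ)).toNat = 0 := by omega
    rw [this]
    show Pn v m = Pn v m * 1
    rw [mul_one]
  · obtain ⟨m, hm⟩ := Int.eq_ofNat_of_zero_le (neg_nonneg.2 h)
    have hc : c = -(m : ℤ) := by omega
    have h1 : c.toNat = 0 := by omega
    have h2 : (-c).toNat = m := by omega
    rw [h1, h2, hc]
    have h3 := P_cocycle v (-(m : ℤ)) m
    rw [neg_add_cancel, P_zero, neg_neg] at h3
    have h4 := congrArg (rs v (-(m : ℤ))) h3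
    rw [map_one, map_mul, rs_rs, rs_rs, neg_add_cancel, rs_zero] at h4
    rw [rs_zero] at h4
    show (1 : PowerSeries K) = _
    exact h4

/-- **(K_c)** as an identity of power series. -/
theorem Kc (hreg : Reg v) (e : ℕ → K) (a : α → α → ℤ) (c : α → ℤ) (S : Finset α) :
    Av (fun w => (c w).toNat) (fun w i => gc v (c w).toNat i) S (fun s => XS v e (shf a c s) S) =
      P v (∑ w ∈ S, c w) *
        Av (fun w => (-c w).toNat) (fun w i => gc v (-c w).toNat i) S
          (fun s => XS v e (shf a c s) S) := by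
  apply Av_XS hreg
  intro w _
  rw [gs_gc v (fun w => (c w).toNat) w, gs_gc v (fun w => (-c w).toNat) w]
  exact P_toNat v (c w)

theorem coeff_Av (D : α → ℕ) (g : α → ℕ → K) (S : Finset α) (F : (α → ℕ) → K) (k : ℕ) :
    PowerSeries.coeff k (Av D g S F) =
      ∑ s ∈ (box D S).filter (fun s => dS S s = k), wt g S s * F s := by
  unfold Av
  rw [map_sum, sum_filter]
  apply sum_congr rfl
  intro s _
  rw [PowerSeries.coeff_C_mul, PowerSeries.coeff_X_pow]
  by_cases h : dS S s = k
  · rw [if_pos h, if_pos h.symm, mul_one]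
  · rw [if_neg h, if_neg (fun h' => h h'.symm), mul_zero]

/-- **(K_c)**, coefficient of `z^k`, in the case `M = ∑ c_w ≥ 0`. -/
theorem Kc_coeff (hreg : Reg v) (e : ℕ → K) (a : α → α → ℤ) (c : α → ℤ) (S : Finset α) (M : ℕ)
    (hM : ∑ w ∈ S, c w = M) (k : ℕ) :
    ∑ s ∈ (box (fun w => (c w).toNat) S).filter (fun s => dS S s = k),
        wt (fun w i => gc v (c w).toNat i) S s * XS v e (shf a c s) S =
      ∑ p ∈ antidiagonal k, gc v M p.1 *
        ∑ s ∈ (box (fun w => (-c w).toNat) S).filter (fun s => dS S s = p.2),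
          wt (fun w i => gc v (-c w).toNat i) S s * XS v e (shf a c s) S := by
  have h := congrArg (PowerSeries.coeff k) (Kc hreg e a c S)
  rw [coeff_Av, PowerSeries.coeff_mul, hM] at h
  rw [h]
  apply sum_congr rfl
  intro p _
  rw [coeff_Av]
  rfl

end KC

end Crest.Agent.R59.KC613
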