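import Mathlib

/-! R59, first link, part a: the subset identities (R) and (A) for unit interval graphs. -/

set_option autoImplicit false

namespace Crest.Agent.R59.Link321

open Finset

/-- Quantum integers in a commutative ring with a unit `v`. -/
noncomputable def V {K : Type*} [CommRing K] (v : Kˣ) (m : ℤ) : K := ((v ^ m : Kˣ) : K)

theorem V_add {K : Type*} [CommRing K] (v : Kˣ) (a b : ℤ) : V v (a + b) = V v a * V v b := by
  simp [V, zpow_add]

theorem V_zero {K : Type*} [CommRing K] (v : Kˣ) : V v 0 = 1 := by simp [V]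

theorem V_mul_neg {K : Type*} [CommRing K] (v : Kˣ) (a : ℤ) : V v a * V v (-a) = 1 := by
  rw [← V_add]; simp [V_zero]

/-- `qi m` for natural `m`: v^(m-1) + v^(m-3) + ... + v^(1-m). -/
noncomputable def qn {K : Type*} [CommRing K] (v : Kˣ) (m : ℕ) : K :=
  ∑ i ∈ range m, V v ((m : ℤ) - 1 - 2 * i)

noncomputable def qi {K : Type*} [CommRing K] (v : Kˣ) (m : ℤ) : K :=
  if 0 ≤ m then qn v m.toNat else - qn v (-m).toNat

theorem qn_mul {K : Type*} [CommRing K] (v : Kˣ) (m : ℕ) :
    (V v 1 - V v (-1)) * qn v m = V v m - V v (-m) := by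
  have key : ∀ k : ℕ, (V v 1 - V v (-1)) * ∑ i ∈ range k, V v ((m : ℤ) - 1 - 2 * i)
      = V v m - V v ((m : ℤ) - 2 * k) := by
    intro k
    induction k with
    | zero => simp
    | succ k ih =>
      rw [sum_range_succ, mul_add, ih, sub_mul, ← V_add, ← V_add]
      have e1 : (1 : ℤ) + ((m : ℤ) - 1 - 2 * k) = (m : ℤ) - 2 * k := by ring
      have e2 : (-1 : ℤ) + ((m : ℤ) - 1 - 2 * k) = (m : ℤ) - 2 * ((k + 1 : ℕ) : ℤ) := by
        push_cast; ring
      rw [e1, e2]; ring
  have := key m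
  rw [qn, this]
  congr 2; ring

theorem qi_mul {K : Type*} [CommRing K] (v : Kˣ) (m : ℤ) :
    (V v 1 - V v (-1)) * qi v m = V v m - V v (-m) := by
  unfold qi
  split_ifs with h
  · rw [qn_mul]
    have : ((m.toNat : ℕ) : ℤ) = m := Int.toNat_of_nonneg h
    rw [this]
  · have h' : 0 ≤ -m := by omega
    rw [mul_neg, qn_mul]
    have : (((-m).toNat : ℕ) : ℤ) = -m := Int.toNat_of_nonneg h'
    rw [this]; simp

theorem qi_zero {K : Type*} [CommRing K] (v : Kˣ) : qi v 0 = 0 := by simp [qi, qn]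
theorem qi_one {K : Type*} [CommRing K] (v : Kˣ) : qi v 1 = 1 := by simp [qi, qn, V_zero]
theorem qi_neg_one {K : Type*} [CommRing K] (v : Kˣ) : qi v (-1) = -1 := by
  simp [qi, qn, V_zero]

theorem qi_nat {K : Type*} [CommRing K] (v : Kˣ) (m : ℕ) : qi v m = qn v m := by
  simp [qi]

theorem qi_neg {K : Type*} [CommRing K] (v : Kˣ) (m : ℤ) : qi v (-m) = - qi v m := by
  unfold qi
  rcases lt_trichotomy m 0 with h | h | h
  · simp [not_le.mpr h, le_of_lt h]
  · subst h; simp [qn]
  · have : ¬ (m ≤ 0) := not_le.mpr h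
    simp [le_of_lt h, this]

/-- recursion `[d] - [d-1] v^-1 = v^(d-1)` for all integers (no regularity needed). -/
theorem qn_succ {K : Type*} [CommRing K] (v : Kˣ) (m : ℕ) :
    qn v (m + 1) = V v m + V v (-1) * qn v m := by
  unfold qn
  rw [sum_range_succ']
  have : ∀ i ∈ range m, V v (((m + 1 : ℕ) : ℤ) - 1 - 2 * ((i + 1 : ℕ) : ℤ))
      = V v (-1) * V v ((m : ℤ) - 1 - 2 * i) := by
    intro i _
    rw [← V_add]; congr 1; push_cast; ring
  rw [sum_congr rfl this, ← mul_sum]
  have e : (((m + 1 : ℕ) : ℤ) - 1 - 2 * ((0 : ℕ) : ℤ)) = m := by push_cast; ring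
  rw [e]; ring

theorem qn_succ' {K : Type*} [CommRing K] (v : Kˣ) (m : ℕ) :
    qn v (m + 1) = V v (-m) + V v 1 * qn v m := by
  unfold qn
  rw [sum_range_succ]
  have : ∀ i ∈ range m, V v (((m + 1 : ℕ) : ℤ) - 1 - 2 * (i : ℤ))
      = V v 1 * V v ((m : ℤ) - 1 - 2 * i) := by
    intro i _
    rw [← V_add]; congr 1; push_cast; ring
  rw [sum_congr rfl this, ← mul_sum]
  have e : (((m + 1 : ℕ) : ℤ) - 1 - 2 * (m : ℤ)) = -m := by push_cast; ring
  rw [e]; ring

/-- for d natural: `[d] = v^(d-1) + v^-1 [d-1]`. -/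
theorem qi_rec {K : Type*} [CommRing K] (v : Kˣ) (d : ℕ) :
    qi v d = V v ((d : ℤ) - 1) + V v (-1) * qi v ((d : ℤ) - 1) := by
  cases d with
  | zero =>
    have : ((0 : ℕ) : ℤ) - 1 = -1 := by norm_num
    rw [this, qi_neg_one]; simp [qi_zero]
  | succ m =>
    have : (((m + 1 : ℕ)) : ℤ) - 1 = m := by push_cast; ring
    rw [this, qi_nat, qi_nat, qn_succ]

theorem qi_rec' {K : Type*} [CommRing K] (v : Kˣ) (d : ℕ) :
    qi v d = V v (1 - (d : ℤ)) + V v 1 * qi v ((d : ℤ) - 1) := by
  cases d with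
  | zero =>
    have : ((0 : ℕ) : ℤ) - 1 = -1 := by norm_num
    rw [this, qi_neg_one]; simp [qi_zero]
  | succ m =>
    have : (((m + 1 : ℕ)) : ℤ) - 1 = m := by push_cast; ring
    have h2 : 1 - (((m + 1 : ℕ)) : ℤ) = -m := by push_cast; ring
    rw [this, h2, qi_nat, qi_nat, qn_succ']

section Graph

variable {α : Type*} [LinearOrder α] (E : α → α → Prop) [DecidableRel E]

/-- number of `u ∈ B` with `E u w` -/
def dg (B : Finset α) (w : α) : ℕ := (B.filter (fun u => E u w)).card

/-- `⟨A, C⟩ = e(A→C) - e(C→A)` -/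
def pr (A C : Finset α) : ℤ := (∑ c ∈ C, (dg E A c : ℤ)) - ∑ a ∈ A, (dg E C a : ℤ)

def Stab (S : Finset α) : Prop := ∀ a ∈ S, ∀ b ∈ S, ¬ E a b

instance (S : Finset α) : Decidable (Stab E S) := by unfold Stab; infer_instance

/-- `T_m(B)` : product over `w ∈ B \ {m}` of `[deg^-_B(w)]`. -/
noncomputable def TT {K : Type*} [CommRing K] (v : Kˣ) (m : α) (B : Finset α) : K :=
  ∏ w ∈ B.erase m, qi v (dg E B w)

/-- `bs m U S = insert m (U \ S)` -/
def bs (m : α) (U S : Finset α) : Finset α := insert m (U \ S)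

/-- the basic sum -/
noncomputable def AA {K : Type*} [CommRing K] (v : Kˣ) (m : α) (s : ℤ) (M : Finset α) (G : ℕ → K)
    (U : Finset α) : K :=
  ∑ S ∈ U.powerset.filter (fun S => Stab E S ∧ Disjoint S M),
    TT E v m (bs m U S) * V v (s * pr E (bs m U S) S) * G (bs m U S).card

/-- unit interval property -/
structure UI (E : α → α → Prop) : Prop where
  lt : ∀ a b, E a b → a < b
  mid : ∀ a b c, a < b → b < c → E a c → E a b ∧ E b c

variable {E}

theorem dg_insert_of_not {B : Finset α} {n w : α} (h : ¬ E n w) :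
    dg E (insert n B) w = dg E B w := by
  unfold dg; rw [filter_insert, if_neg h]

theorem dg_insert_of {B : Finset α} {n w : α} (hn : n ∉ B) (h : E n w) :
    dg E (insert n B) w = dg E B w + 1 := by
  unfold dg; rw [filter_insert, if_pos h, card_insert_of_notMem]
  simp [hn]

theorem pr_insert_right (hE : UI E) {B S : Finset α} {n : α} (hB : ∀ b ∈ B, b < n) (hn : n ∉ S) :
    pr E B (insert n S) = pr E B S + dg E B n := by
  unfold pr
  rw [sum_insert hn]
  have : ∑ a ∈ B, (dg E (insert n S) a : ℤ) = ∑ a ∈ B, (dg E S a : ℤ) := by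
    apply sum_congr rfl
    intro b hb
    rw [dg_insert_of_not]
    intro h
    exact absurd (hE.lt _ _ h) (not_lt.mpr (le_of_lt (hB b hb)))
  rw [this]; ring

theorem pr_insert_left (hE : UI E) {B S : Finset α} {n : α} (hS : ∀ b ∈ S, b < n) (hn : n ∉ B) :
    pr E (insert n B) S = pr E B S - dg E S n := by
  unfold pr
  rw [sum_insert hn]
  have : ∑ a ∈ S, (dg E (insert n B) a : ℤ) = ∑ a ∈ S, (dg E B a : ℤ) := by
    apply sum_congr rfl
    intro b hb
    rw [dg_insert_of_not]
    intro h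
    exact absurd (hE.lt _ _ h) (not_lt.mpr (le_of_lt (hS b hb)))
  rw [this]; ring

theorem TT_insert (hE : UI E) {K : Type*} [CommRing K] (v : Kˣ) {m n : α} {B : Finset α}
    (hmn : m < n) (hB : ∀ b ∈ B, b < n) :
    TT E v m (insert n B) = TT E v m B * qi v (dg E B n) := by
  have hnB : n ∉ B := fun h => lt_irrefl _ (hB n h)
  unfold TT
  rw [erase_insert_of_ne (ne_of_gt hmn), prod_insert (by simp [hnB])]
  have h1 : dg E (insert n B) n = dg E B n := by
    apply dg_insert_of_not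
    intro h; exact lt_irrefl _ (hE.lt _ _ h)
  rw [h1, mul_comm]
  congr 1
  apply prod_congr rfl
  intro w hw
  rw [dg_insert_of_not]
  intro h
  have := hB w (mem_of_mem_erase hw)
  exact absurd (hE.lt _ _ h) (not_lt.mpr (le_of_lt this))

theorem Stab_insert (hE : UI E) {S : Finset α} {n : α} (hS : ∀ b ∈ S, b < n) :
    Stab E (insert n S) ↔ Stab E S ∧ ∀ s ∈ S, ¬ E s n := by
  unfold Stab
  constructor
  · intro h
    refine ⟨fun a ha b hb => h a (mem_insert_of_mem ha) b (mem_insert_of_mem hb), ?_⟩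
    intro s hs
    exact h s (mem_insert_of_mem hs) n (mem_insert_self _ _)
  · rintro ⟨h1, h2⟩ a ha b hb hab
    rw [mem_insert] at ha hb
    rcases ha with rfl | ha
    · have hlt := hE.lt _ _ hab
      rcases hb with rfl | hb
      · exact lt_irrefl _ hlt
      · exact absurd hlt (not_lt.mpr (le_of_lt (hS b hb)))
    · rcases hb with rfl | hb
      · exact h2 a ha hab
      · exact h1 a ha b hb hab

/-- neighbours of n in W -/
def nb (E : α → α → Prop) [DecidableRel E] (n : α) (W : Finset α) : Finset α :=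
  W.filter (fun b => E b n)

end Graph

end Crest.Agent.R59.Link321
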