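import Crest.Agent.R59.Link321a

/-! R59, first link, part b: recursion of the sums `AA` and the identities (R), (A). -/

set_option autoImplicit false
set_option linter.unusedSectionVars false

namespace Crest.Agent.R59.Link321

open Finset

section

variable {α : Type*} [LinearOrder α] {E : α → α → Prop} [DecidableRel E]
variable {K : Type*} [CommRing K] (v : Kˣ)

theorem bs_insert {m n : α} {U S : Finset α} (hnS : n ∉ S) :
    bs m (insert n U) S = insert n (bs m U S) := by
  unfold bs
  ext x
  simp only [mem_insert, mem_sdiff]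
  constructor
  · rintro (h | ⟨h | h, h2⟩)
    · exact Or.inr (Or.inl h)
    · exact Or.inl h
    · exact Or.inr (Or.inr ⟨h, h2⟩)
  · rintro (h | h | ⟨h, h2⟩)
    · subst h; exact Or.inr ⟨Or.inl rfl, hnS⟩
    · exact Or.inl h
    · exact Or.inr ⟨Or.inr h, h2⟩

theorem bs_insert_insert {m n : α} {U S : Finset α} (hnU : n ∉ U) :
    bs m (insert n U) (insert n S) = bs m U S := by
  unfold bs
  ext x
  simp only [mem_insert, mem_sdiff, not_or]
  constructor
  · rintro (h | ⟨h | h, h2, h3⟩)
    · exact Or.inl h
    · exact absurd h h2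
    · exact Or.inr ⟨h, h3⟩
  · rintro (h | ⟨h, h2⟩)
    · exact Or.inl h
    · refine Or.inr ⟨Or.inr h, ?_, h2⟩
      rintro rfl; exact hnU h

theorem dg_add {m n : α} {U S : Finset α} (hS : S ⊆ U) (hmU : m ∉ U) :
    dg E (bs m U S) n + dg E S n = (nb E n (insert m U)).card := by
  unfold dg nb bs
  rw [← card_union_of_disjoint, ← filter_union]
  · congr 2
    ext x
    simp only [mem_union, mem_insert, mem_sdiff]
    constructor
    · rintro ((h | ⟨h, _⟩) | h)
      · exact Or.inl h
      · exact Or.inr h
      · exact Or.inr (hS h)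
    · rintro (h | h)
      · exact Or.inl (Or.inl h)
      · by_cases hx : x ∈ S
        · exact Or.inr hx
        · exact Or.inl (Or.inr ⟨h, hx⟩)
  · apply disjoint_filter_filter
    rw [disjoint_left]
    intro x hx hxS
    rw [mem_insert, mem_sdiff] at hx
    rcases hx with rfl | ⟨_, h2⟩
    · exact hmU (hS hxS)
    · exact h2 hxS

theorem dg_le_one (hE : UI E) {S : Finset α} {n : α} (hS : Stab E S) : dg E S n ≤ 1 := by
  unfold dg
  rw [card_le_one]
  intro a ha b hb
  rw [mem_filter] at ha hb
  by_contra hab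
  rcases lt_or_gt_of_ne hab with h | h
  · exact hS a ha.1 b hb.1 (hE.mid a b n h (hE.lt _ _ hb.2) ha.2).1
  · exact hS b hb.1 a ha.1 (hE.mid b a n h (hE.lt _ _ ha.2) hb.2).1

theorem dg_eq_zero_iff {m n : α} {U S : Finset α} (hS : S ⊆ U) :
    dg E S n = 0 ↔ Disjoint S (nb E n (insert m U)) := by
  unfold dg nb
  rw [card_eq_zero, filter_eq_empty_iff, disjoint_left]
  constructor
  · intro h x hx hx2
    rw [mem_filter] at hx2
    exact h hx hx2.2
  · intro h x hx hx2
    exact h hx (mem_filter.mpr ⟨mem_insert_of_mem (hS hx), hx2⟩)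

theorem card_bs_insert {m n : α} {U S : Finset α} (hn : ∀ u ∈ insert m U, u < n) :
    (insert n (bs m U S)).card = (bs m U S).card + 1 := by
  rw [card_insert_of_notMem]
  intro h
  have : n ∈ insert m U := by
    unfold bs at h
    rw [mem_insert, mem_sdiff] at h
    rw [mem_insert]
    rcases h with h | h
    · exact Or.inl h
    · exact Or.inr h.1
  exact lt_irrefl _ (hn n this)

theorem bs_lt {m n : α} {U S : Finset α} (hn : ∀ u ∈ insert m U, u < n) :
    ∀ b ∈ bs m U S, b < n := by
  intro b hb
  apply hn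
  unfold bs at hb
  rw [mem_insert, mem_sdiff] at hb
  rw [mem_insert]
  rcases hb with h | h
  · exact Or.inl h
  · exact Or.inr h.1

/-- the quantum number split used for `n ∈ B`. -/
theorem split_qi (s : ℤ) (hs : s = 1 ∨ s = -1) (d : ℕ) :
    qi v d = V v (s * ((d : ℤ) - 1)) + V v (-s) * qi v ((d : ℤ) - 1) := by
  rcases hs with rfl | rfl
  · rw [one_mul]; exact qi_rec v d
  · rw [qi_rec' v d]
    congr 2
    ring

/-- the term for `n ∉ S`. -/
theorem term_notMem (hE : UI E) (s : ℤ) (hs : s = 1 ∨ s = -1) {m n : α} {U S : Finset α}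
    (hmU : m ∉ U) (hn : ∀ u ∈ insert m U, u < n) (hSU : S ⊆ U) (hst : Stab E S) (G : ℕ → K) :
    TT E v m (bs m (insert n U) S) * V v (s * pr E (bs m (insert n U) S) S)
        * G (bs m (insert n U) S).card
      = TT E v m (bs m U S) * V v (s * pr E (bs m U S) S) * G ((bs m U S).card + 1)
        * ((if Disjoint S (nb E n (insert m U)) then
              V v (s * (((nb E n (insert m U)).card : ℤ) - 1)) else 0)
            + V v (-s) * qi v (((nb E n (insert m U)).card : ℤ) - 1)) := by
  have hnU : n ∉ U := fun h => lt_irrefl _ (hn n (mem_insert_of_mem h))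
  have hnS : n ∉ S := fun h => hnU (hSU h)
  have hnB : n ∉ bs m U S := fun h => lt_irrefl _ (bs_lt hn n h)
  have hmn : m < n := hn m (mem_insert_self _ _)
  have hSn : ∀ b ∈ S, b < n := fun b hb => hn b (mem_insert_of_mem (hSU hb))
  rw [bs_insert hnS, TT_insert hE v hmn (bs_lt hn), card_bs_insert hn,
    pr_insert_left hE hSn hnB]
  have hadd := dg_add (E := E) (n := n) hSU hmU
  by_cases hd : Disjoint S (nb E n (insert m U))
  · rw [if_pos hd]
    have h0 : dg E S n = 0 := (dg_eq_zero_iff hSU).mpr hd
    have hB : dg E (bs m U S) n = (nb E n (insert m U)).card := by omega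
    rw [h0, hB]
    rw [← split_qi v s hs]
    simp only [Nat.cast_zero, sub_zero]
    ring
  · rw [if_neg hd]
    have h0 : dg E S n ≠ 0 := fun h => hd ((dg_eq_zero_iff hSU).mp h)
    have h1 : dg E S n = 1 := by
      have := dg_le_one hE (n := n) hst
      omega
    have hB : ((dg E (bs m U S) n : ℕ) : ℤ) = ((nb E n (insert m U)).card : ℤ) - 1 := by
      have : ((dg E (bs m U S) n : ℕ) : ℤ) + ((dg E S n : ℕ) : ℤ)
          = ((nb E n (insert m U)).card : ℤ) := by exact_mod_cast hadd
      rw [h1] at this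
      push_cast at this
      linarith
    rw [h1, hB]
    have e : s * (pr E (bs m U S) S - ((1 : ℕ) : ℤ)) = s * pr E (bs m U S) S + (-s) := by
      push_cast; ring
    rw [e, V_add]
    ring

theorem term_mem (hE : UI E) (s : ℤ) {m n : α} {U S : Finset α}
    (hmU : m ∉ U) (hn : ∀ u ∈ insert m U, u < n) (hSU : S ⊆ U)
    (hd : Disjoint S (nb E n (insert m U))) (G : ℕ → K) :
    TT E v m (bs m (insert n U) (insert n S))
        * V v (s * pr E (bs m (insert n U) (insert n S)) (insert n S))
        * G (bs m (insert n U) (insert n S)).card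
      = V v (s * ((nb E n (insert m U)).card : ℤ))
        * (TT E v m (bs m U S) * V v (s * pr E (bs m U S) S) * G ((bs m U S).card)) := by
  have hnU : n ∉ U := fun h => lt_irrefl _ (hn n (mem_insert_of_mem h))
  have hnS : n ∉ S := fun h => hnU (hSU h)
  rw [bs_insert_insert hnU, pr_insert_right hE (bs_lt hn) hnS]
  have hadd := dg_add (E := E) (n := n) hSU hmU
  have h0 : dg E S n = 0 := (dg_eq_zero_iff hSU).mpr hd
  have hB : dg E (bs m U S) n = (nb E n (insert m U)).card := by omega
  rw [hB, mul_add, V_add]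
  ring

theorem AA_eq (m : α) (s : ℤ) (M : Finset α) (G : ℕ → K) (U : Finset α) :
    AA E v m s M G U = ∑ S ∈ U.powerset, if Stab E S ∧ Disjoint S M then
      TT E v m (bs m U S) * V v (s * pr E (bs m U S) S) * G (bs m U S).card else 0 := by
  unfold AA; rw [sum_filter]

/-- recursion, `M' = insert n M`. -/
theorem AA_rec (hE : UI E) (s : ℤ) (hs : s = 1 ∨ s = -1) {m n : α} {U M : Finset α}
    (hmU : m ∉ U) (hn : ∀ u ∈ insert m U, u < n) (hM : M ⊆ nb E n (insert m U)) (G : ℕ → K) :
    AA E v m s (insert n M) G (insert n U)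
      = V v (s * (((nb E n (insert m U)).card : ℤ) - 1))
          * AA E v m s (nb E n (insert m U)) (fun k => G (k + 1)) U
        + qi v (((nb E n (insert m U)).card : ℤ) - 1) * V v (-s)
          * AA E v m s M (fun k => G (k + 1)) U := by
  have hnU : n ∉ U := fun h => lt_irrefl _ (hn n (mem_insert_of_mem h))
  rw [AA_eq, AA_eq, AA_eq, sum_powerset_insert hnU]
  have h2 : ∀ S ∈ U.powerset, (if Stab E (insert n S) ∧ Disjoint (insert n S) (insert n M) then
      TT E v m (bs m (insert n U) (insert n S))
        * V v (s * pr E (bs m (insert n U) (insert n S)) (insert n S))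
        * G (bs m (insert n U) (insert n S)).card else 0) = 0 := by
    intro S _
    rw [if_neg]
    rintro ⟨_, h⟩
    rw [disjoint_left] at h
    exact h (mem_insert_self _ _) (mem_insert_self _ _)
  rw [sum_congr rfl h2, sum_const_zero, add_zero, mul_sum, mul_sum, ← sum_add_distrib]
  apply sum_congr rfl
  intro S hS
  have hSU : S ⊆ U := mem_powerset.mp hS
  have hnS : n ∉ S := fun h => hnU (hSU h)
  have hdis : Disjoint S (insert n M) ↔ Disjoint S M := by
    rw [disjoint_insert_right]; simp [hnS]
  by_cases hst : Stab E S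
  · by_cases hdM : Disjoint S M
    · rw [if_pos ⟨hst, hdis.mpr hdM⟩, term_notMem v hE s hs hmU hn hSU hst]
      rw [if_pos (And.intro hst hdM)]
      by_cases hdN : Disjoint S (nb E n (insert m U))
      · rw [if_pos hdN, if_pos (And.intro hst hdN)]; ring
      · rw [if_neg hdN, if_neg (fun h => hdN h.2)]; ring
    · have hdN : ¬ Disjoint S (nb E n (insert m U)) :=
        fun h => hdM (disjoint_of_subset_right hM h)
      rw [if_neg (fun h => hdM (hdis.mp h.2)), if_neg (fun h => hdN h.2),
        if_neg (fun h => hdM h.2)]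
      ring
  · rw [if_neg (fun h => hst h.1), if_neg (fun h => hst h.1), if_neg (fun h => hst h.1)]; ring

/-- recursion, `M' = ∅`. -/
theorem AA_rec0 (hE : UI E) (s : ℤ) (hs : s = 1 ∨ s = -1) {m n : α} {U : Finset α}
    (hmU : m ∉ U) (hn : ∀ u ∈ insert m U, u < n) (G : ℕ → K) :
    AA E v m s ∅ G (insert n U)
      = V v (s * (((nb E n (insert m U)).card : ℤ) - 1))
          * AA E v m s (nb E n (insert m U)) (fun k => G (k + 1)) U
        + V v (s * ((nb E n (insert m U)).card : ℤ))
          * AA E v m s (nb E n (insert m U)) G U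
        + qi v (((nb E n (insert m U)).card : ℤ) - 1) * V v (-s)
          * AA E v m s ∅ (fun k => G (k + 1)) U := by
  have hnU : n ∉ U := fun h => lt_irrefl _ (hn n (mem_insert_of_mem h))
  rw [AA_eq, AA_eq, AA_eq, AA_eq, sum_powerset_insert hnU, mul_sum, mul_sum, mul_sum,
    ← sum_add_distrib, ← sum_add_distrib, ← sum_add_distrib]
  apply sum_congr rfl
  intro S hS
  have hSU : S ⊆ U := mem_powerset.mp hS
  have hnS : n ∉ S := fun h => hnU (hSU h)
  have hSn : ∀ b ∈ S, b < n := fun b hb => hn b (mem_insert_of_mem (hSU hb))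
  have hst' : Stab E (insert n S) ↔ Stab E S ∧ Disjoint S (nb E n (insert m U)) := by
    rw [Stab_insert hE hSn, ← dg_eq_zero_iff hSU]
    unfold dg
    rw [card_eq_zero, filter_eq_empty_iff]
  simp only [disjoint_empty_right, and_true]
  by_cases hst : Stab E S
  · rw [if_pos hst, term_notMem v hE s hs hmU hn hSU hst, if_pos hst]
    by_cases hdN : Disjoint S (nb E n (insert m U))
    · rw [if_pos hdN, if_pos (hst'.mpr ⟨hst, hdN⟩), if_pos ⟨hst, hdN⟩, if_pos ⟨hst, hdN⟩,
        term_mem v hE s hmU hn hSU hdN]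
      ring
    · rw [if_neg hdN, if_neg (fun h => hdN (hst'.mp h).2), if_neg (fun h => hdN h.2),
        if_neg (fun h => hdN h.2)]
      ring
  · rw [if_neg hst, if_neg (fun h => hst (hst'.mp h).1), if_neg (fun h => hst h.1),
      if_neg (fun h => hst h.1), if_neg hst]
    ring

end

end Crest.Agent.R59.Link321
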