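import Crest.Agent.R59.Link321b

/-! R59, first link, part c: the identities (R) and (A). -/

set_option autoImplicit false
set_option linter.unusedSectionVars false

namespace Crest.Agent.R59.Link321

open Finset

/-- shift -/
def sh {K : Type*} (G : ℕ → K) : ℕ → K := fun k => G (k + 1)

section

variable {α : Type*} [LinearOrder α] {E : α → α → Prop} [DecidableRel E]
variable {K : Type*} [CommRing K] (v : Kˣ)

/-- indicator that `insert m U` is stable -/
noncomputable def kap (E : α → α → Prop) [DecidableRel E] (K : Type*) [CommRing K] (m : α)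
    (U : Finset α) : K := if Stab E (insert m U) then 1 else 0

theorem AA_recs (hE : UI E) (s : ℤ) (hs : s = 1 ∨ s = -1) {m n : α} {U M : Finset α}
    (hmU : m ∉ U) (hn : ∀ u ∈ insert m U, u < n) (hM : M ⊆ nb E n (insert m U)) (G : ℕ → K) :
    AA E v m s (insert n M) G (insert n U)
      = V v (s * (((nb E n (insert m U)).card : ℤ) - 1))
          * AA E v m s (nb E n (insert m U)) (sh G) U
        + qi v (((nb E n (insert m U)).card : ℤ) - 1) * V v (-s)
          * AA E v m s M (sh G) U := AA_rec v hE s hs hmU hn hM G

theorem AA_recs0 (hE : UI E) (s : ℤ) (hs : s = 1 ∨ s = -1) {m n : α} {U : Finset α}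
    (hmU : m ∉ U) (hn : ∀ u ∈ insert m U, u < n) (G : ℕ → K) :
    AA E v m s ∅ G (insert n U)
      = V v (s * (((nb E n (insert m U)).card : ℤ) - 1))
          * AA E v m s (nb E n (insert m U)) (sh G) U
        + V v (s * ((nb E n (insert m U)).card : ℤ))
          * AA E v m s (nb E n (insert m U)) G U
        + qi v (((nb E n (insert m U)).card : ℤ) - 1) * V v (-s)
          * AA E v m s ∅ (sh G) U := AA_rec0 v hE s hs hmU hn G

/-- statement (R) -/
def RR (E : α → α → Prop) [DecidableRel E] (v : Kˣ) (m : α) (U : Finset α) : Prop :=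
  ∀ G : ℕ → K, AA E v m 1 ∅ (sh G) U + V v (-1) * AA E v m 1 ∅ G U
    - (AA E v m (-1) ∅ (sh G) U + V v 1 * AA E v m (-1) ∅ G U)
    = - (V v 1 - V v (-1)) * kap E K m U * G 1

/-- statement (A) -/
def AS (E : α → α → Prop) [DecidableRel E] (v : Kˣ) (m : α) (U M : Finset α) : Prop :=
  ∀ G : ℕ → K,
    V v ((M.card : ℤ) - 1) * (AA E v m 1 M (sh G) U + V v (-1) * AA E v m 1 M G U)
    - V v (1 - (M.card : ℤ)) * (AA E v m (-1) M (sh G) U + V v (-1) * AA E v m (-1) M G U)
    = (V v ((M.card : ℤ) - 1) - V v (1 - (M.card : ℤ))) * AA E v m (-1) ∅ (sh G) U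
      - (if M = ∅ then (V v 1 - V v (-1)) * V v (-1) * kap E K m U * G 1 else 0)

theorem AS_empty {m : α} {U : Finset α} (h : RR E v m U) : AS E v m U ∅ := by
  intro G
  have h1 := h G
  have h2 : V v 1 * V v (-1) = 1 := V_mul_neg v 1
  simp only [card_empty, Nat.cast_zero, zero_sub, sub_zero, if_true]
  linear_combination (V v (-1)) * h1

def UpC (E : α → α → Prop) (W M : Finset α) : Prop :=
  M ⊆ W ∧ (∀ b ∈ M, ∀ c ∈ W, b < c → c ∈ M) ∧ ∀ b ∈ M, ∀ c ∈ M, b < c → E b c

theorem UpC_nb (hE : UI E) {n : α} {W : Finset α} (hn : ∀ u ∈ W, u < n) :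
    UpC E W (nb E n W) := by
  refine ⟨filter_subset _ _, ?_, ?_⟩
  · intro b hb c hc hbc
    unfold nb at *
    rw [mem_filter] at *
    exact ⟨hc, (hE.mid b c n hbc (hn c hc) hb.2).2⟩
  · intro b hb c hc hbc
    unfold nb at *
    rw [mem_filter] at *
    exact (hE.mid b c n hbc (hn c hc.1) hb.2).1

theorem AA_nil (m : α) (s : ℤ) (M : Finset α) (G : ℕ → K) :
    AA E v m s M G ∅ = G 1 := by
  rw [AA_eq]
  have : Stab E (∅ : Finset α) := by intro a ha; simp at ha
  simp [bs, TT, pr, dg, V_zero, this]

theorem main (hE : UI E) (m : α) (U : Finset α) (hU : ∀ u ∈ U, m < u) :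
    RR E v m U ∧ ∀ M, UpC E (insert m U) M → AS E v m U M := by
  induction U using Finset.induction_on_max with
  | empty =>
    have hst : Stab E (insert m (∅ : Finset α)) := by
      intro a ha b hb h
      simp at ha hb
      subst ha; subst hb
      exact lt_irrefl _ (hE.lt _ _ h)
    have hR : RR E v m ∅ := by
      intro G
      simp only [AA_nil, kap, if_pos hst, sh]
      ring
    refine ⟨hR, ?_⟩
    intro M hM
    by_cases h0 : M = ∅
    · subst h0; exact AS_empty v hR
    · have hM1 : M = {m} := by
        have h1 : M ⊆ {m} := hM.1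
        rcases subset_singleton_iff.mp h1 with h | h
        · exact absurd h h0
        · exact h
      subst hM1
      intro G
      simp only [AA_nil, card_singleton, Nat.cast_one, sub_self, if_neg h0]
      ring
  | insert n U hnU ih =>
    have hU' : ∀ u ∈ U, m < u := fun u hu => hU u (mem_insert_of_mem hu)
    have hmn : m < n := hU n (mem_insert_self _ _)
    have hmU : m ∉ U := fun h => lt_irrefl _ (hU' m h)
    have hn : ∀ u ∈ insert m U, u < n := by
      intro u hu
      rw [mem_insert] at hu
      rcases hu with rfl | hu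
      · exact hmn
      · exact hnU u hu
    obtain ⟨ihR, ihA⟩ := ih hU'
    set N := nb E n (insert m U) with hN
    have hNup : UpC E (insert m U) N := UpC_nb hE hn
    have ihN := ihA N hNup
    have hsta : Stab E (insert m (insert n U)) ↔ Stab E (insert m U) ∧ N = ∅ := by
      have hcomm : insert m (insert n U) = insert n (insert m U) := by
        ext x; simp only [mem_insert]; tauto
      rw [hcomm, Stab_insert hE hn]
      constructor
      · rintro ⟨h1, h2⟩
        refine ⟨h1, ?_⟩
        rw [hN]; unfold nb
        rw [filter_eq_empty_iff]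
        exact h2
      · rintro ⟨h1, h2⟩
        refine ⟨h1, ?_⟩
        rw [hN] at h2; unfold nb at h2
        rw [filter_eq_empty_iff] at h2
        exact h2
    have hd1 : Stab E (insert m U) → N.card ≤ 1 := fun h => dg_le_one hE (n := n) h
    have hvv : V v 1 * V v (-1) = 1 := V_mul_neg v 1
    have hq : (V v 1 - V v (-1)) * qi v ((N.card : ℤ) - 1)
        = V v ((N.card : ℤ) - 1) - V v (1 - (N.card : ℤ)) := by
      rw [qi_mul]; congr 2; ring
    have e1 : ∀ G : ℕ → K, AA E v m 1 ∅ G (insert n U)
        = V v ((N.card : ℤ) - 1) * AA E v m 1 N (sh G) U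
          + V v ((N.card : ℤ) - 1) * V v 1 * AA E v m 1 N G U
          + qi v ((N.card : ℤ) - 1) * V v (-1) * AA E v m 1 ∅ (sh G) U := by
      intro G
      have h := AA_recs0 v hE 1 (Or.inl rfl) hmU hn G
      rw [← hN] at h
      rw [h, one_mul, one_mul, ← V_add]
      congr 4
      ring
    have e2 : ∀ G : ℕ → K, AA E v m (-1) ∅ G (insert n U)
        = V v (1 - (N.card : ℤ)) * AA E v m (-1) N (sh G) U
          + V v (1 - (N.card : ℤ)) * V v (-1) * AA E v m (-1) N G U
          + qi v ((N.card : ℤ) - 1) * V v 1 * AA E v m (-1) ∅ (sh G) U := by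
      intro G
      have h := AA_recs0 v hE (-1) (Or.inr rfl) hmU hn G
      rw [← hN] at h
      rw [h, ← V_add]
      have a1 : (-1 : ℤ) * ((N.card : ℤ) - 1) = 1 - (N.card : ℤ) := by ring
      have a2 : (-1 : ℤ) * (N.card : ℤ) = 1 - (N.card : ℤ) + -1 := by ring
      have a3 : (-(-1) : ℤ) = 1 := by ring
      rw [a1, a2, a3]
    have hR : RR E v m (insert n U) := by
      intro G
      have hkap : kap E K m (insert n U) = if N = ∅ then kap E K m U else 0 := by
        unfold kap
        by_cases h1 : Stab E (insert m U)
        · by_cases h2 : N = ∅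
          · rw [if_pos (hsta.mpr ⟨h1, h2⟩), if_pos h2, if_pos h1]
          · rw [if_neg (fun h => h2 (hsta.mp h).2), if_neg h2]
        · rw [if_neg (fun h => h1 (hsta.mp h).1), if_neg h1]; simp
      rw [e1, e1, e2, e2, hkap]
      have i1 := ihN (sh G)
      have i2 := ihN G
      have i3 := ihR (sh G)
      have hsh : sh G 1 = G 2 := rfl
      rw [hsh] at i1 i3
      by_cases h2 : N = ∅
      · have hc : (N.card : ℤ) = 0 := by rw [h2]; simp
        have hq0 : qi v ((N.card : ℤ) - 1) = -1 := by rw [hc, zero_sub, qi_neg_one]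
        rw [if_pos h2] at i1 i2
        rw [if_pos h2, hq0]
        rw [hc, zero_sub, sub_zero] at i1 i2 ⊢
        linear_combination i1 + (V v 1) * i2 - (V v (-1)) * i3
          - (kap E K m U * G 1 * (V v 1 - V v (-1))) * hvv
      · rw [if_neg h2] at i1 i2
        rw [if_neg h2]
        have hz : qi v ((N.card : ℤ) - 1) * kap E K m U = 0 := by
          unfold kap
          by_cases h1 : Stab E (insert m U)
          · have hle := hd1 h1
            have hpos : 0 < N.card := card_pos.mpr (nonempty_iff_ne_empty.mpr h2)
            have hc : (N.card : ℤ) = 1 := by omega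
            rw [hc, sub_self, qi_zero, zero_mul]
          · rw [if_neg h1, mul_zero]
        linear_combination i1 + (V v 1) * i2 + (qi v ((N.card : ℤ) - 1) * V v (-1)) * i3
          - (AA E v m (-1) ∅ (sh (sh G)) U + V v 1 * AA E v m (-1) ∅ (sh G) U) * hq
          - (V v (-1) * (V v 1 - V v (-1)) * G 2) * hz
    refine ⟨hR, ?_⟩
    intro M' hM'
    by_cases h0 : M' = ∅
    · subst h0; exact AS_empty v hR
    · -- `n ∈ M'`
      have hnM : n ∈ M' := by
        obtain ⟨b, hb⟩ := nonempty_iff_ne_empty.mpr h0
        by_cases hbn : b = n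
        · rw [← hbn]; exact hb
        · have hbW : b ∈ insert m U := by
            have := hM'.1 hb
            simp only [mem_insert] at this ⊢
            rcases this with h | h | h
            · exact Or.inl h
            · exact absurd h hbn
            · exact Or.inr h
          exact hM'.2.1 b hb n (mem_insert_of_mem (mem_insert_self _ _)) (hn b hbW)
      set M := M'.erase n with hMdef
      have hMM : M' = insert n M := (insert_erase hnM).symm
      have hnM2 : n ∉ M := by rw [hMdef]; exact notMem_erase _ _
      have hMW : M ⊆ insert m U := by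
        intro x hx
        rw [hMdef, mem_erase] at hx
        have := hM'.1 hx.2
        simp only [mem_insert] at this ⊢
        rcases this with h | h | h
        · exact Or.inl h
        · exact absurd h hx.1
        · exact Or.inr h
      have hMup : UpC E (insert m U) M := by
        refine ⟨hMW, ?_, ?_⟩
        · intro b hb c hc hbc
          have hcn : c ≠ n := ne_of_lt (hn c hc)
          rw [hMdef, mem_erase]
          refine ⟨hcn, hM'.2.1 b (mem_of_mem_erase hb) c ?_ hbc⟩
          simp only [mem_insert] at hc ⊢
          rcases hc with h | h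
          · exact Or.inl h
          · exact Or.inr (Or.inr h)
        · intro b hb c hc hbc
          exact hM'.2.2 b (mem_of_mem_erase hb) c (mem_of_mem_erase hc) hbc
      have hMN : M ⊆ N := by
        intro b hb
        rw [hN]; unfold nb
        rw [mem_filter]
        exact ⟨hMW hb, hM'.2.2 b (mem_of_mem_erase hb) n hnM (hn b (hMW hb))⟩
      have ihM := ihA M hMup
      intro G
      have f1 : ∀ G : ℕ → K, AA E v m 1 M' G (insert n U)
          = V v ((N.card : ℤ) - 1) * AA E v m 1 N (sh G) U
            + qi v ((N.card : ℤ) - 1) * V v (-1) * AA E v m 1 M (sh G) U := by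
        intro G
        have h := AA_recs v hE 1 (Or.inl rfl) hmU hn hMN G
        rw [← hN] at h
        rw [hMM, h, one_mul]
      have f2 : ∀ G : ℕ → K, AA E v m (-1) M' G (insert n U)
          = V v (1 - (N.card : ℤ)) * AA E v m (-1) N (sh G) U
            + qi v ((N.card : ℤ) - 1) * V v 1 * AA E v m (-1) M (sh G) U := by
        intro G
        have h := AA_recs v hE (-1) (Or.inr rfl) hmU hn hMN G
        rw [← hN] at h
        have a1 : (-1 : ℤ) * ((N.card : ℤ) - 1) = 1 - (N.card : ℤ) := by ring
        have a3 : (-(-1) : ℤ) = 1 := by ring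
        rw [a1, a3] at h
        rw [hMM, h]
      have hcard : (M'.card : ℤ) = (M.card : ℤ) + 1 := by
        rw [hMM, card_insert_of_notMem hnM2]; push_cast; ring
      rw [f1, f1, f2, f2, e2, if_neg h0, hcard]
      have b1 : (M.card : ℤ) + 1 - 1 = M.card := by ring
      have b2 : 1 - ((M.card : ℤ) + 1) = -(M.card : ℤ) := by ring
      rw [b1, b2]
      have i1 := ihN (sh G)
      have i2 := ihM (sh G)
      have hsh : sh G 1 = G 2 := rfl
      rw [hsh] at i1 i2
      have c1 : V v ((M.card : ℤ) - 1) = V v M.card * V v (-1) := by rw [← V_add]; rfl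
      have c2 : V v (1 - (M.card : ℤ)) = V v (-(M.card : ℤ)) * V v 1 := by
        rw [← V_add]; congr 1; ring
      rw [c1, c2] at i2
      by_cases h2 : N = ∅
      · have hM0 : M = ∅ := by rw [h2] at hMN; exact subset_empty.mp hMN
        have hc : (N.card : ℤ) = 0 := by rw [h2]; simp
        have hcM : (M.card : ℤ) = 0 := by rw [hM0]; simp
        have hq0 : qi v ((N.card : ℤ) - 1) = -1 := by rw [hc, zero_sub, qi_neg_one]
        rw [hq0, hcM, hc]
        rw [if_pos h2, hc] at i1
        rw [if_pos hM0, hcM] at i2
        simp only [V_zero, neg_zero, one_mul, zero_sub, sub_zero, sub_self, zero_mul] at i1 i2 ⊢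
        linear_combination i1 - i2
      · have hz : qi v ((N.card : ℤ) - 1) * (if M = ∅ then (V v 1 - V v (-1)) * V v (-1)
            * kap E K m U * G 2 else 0) = 0 := by
          have hz0 : qi v ((N.card : ℤ) - 1) * kap E K m U = 0 := by
            unfold kap
            by_cases h1 : Stab E (insert m U)
            · have hle := hd1 h1
              have hpos : 0 < N.card := card_pos.mpr (nonempty_iff_ne_empty.mpr h2)
              have hc : (N.card : ℤ) = 1 := by omega
              rw [hc, sub_self, qi_zero, zero_mul]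
            · rw [if_neg h1, mul_zero]
          split_ifs
          · linear_combination ((V v 1 - V v (-1)) * V v (-1) * G 2) * hz0
          · ring
        rw [if_neg h2] at i1
        linear_combination (V v M.card) * i1 + (qi v ((N.card : ℤ) - 1)) * i2
          - (V v M.card * AA E v m (-1) ∅ (sh (sh G)) U) * hq - hz

end

end Crest.Agent.R59.Link321
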