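import Crest.Agent.R59.Link321c

/-! R59, first link, part d: the recursion of the chromatic quasisymmetric function
(abstract form: set recursion in the number of variables). -/

set_option autoImplicit false
set_option linter.unusedSectionVars false

namespace Crest.Agent.R59.Link321

open Finset

section

variable {α : Type*} [LinearOrder α] {E : α → α → Prop} [DecidableRel E]
variable {K : Type*} [CommRing K] (v : Kˣ)

/-- elementary symmetric functions of `x 0, ..., x (N-1)`, integer index. -/
noncomputable def ez (x : ℕ → K) : ℕ → ℤ → K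
  | 0, k => if k = 0 then 1 else 0
  | N + 1, k => ez x N k + x N * ez x N (k - 1)

theorem ez_neg (x : ℕ → K) (N : ℕ) (k : ℤ) (hk : k < 0) : ez x N k = 0 := by
  induction N generalizing k with
  | zero => simp [ez, ne_of_lt hk]
  | succ N ih => rw [ez, ih k hk, ih (k - 1) (by omega)]; simp

theorem ez_zero (x : ℕ → K) (N : ℕ) : ez x N 0 = 1 := by
  induction N with
  | zero => simp [ez]
  | succ N ih => rw [ez, ih, ez_neg x N (0 - 1) (by omega)]; simp

/-- chromatic function of the induced subgraph on `Y` in variables `x 0, ..., x (N-1)`,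
`v^{asc-des}` normalisation, by peeling the largest colour. -/
noncomputable def XX (E : α → α → Prop) [DecidableRel E] (v : Kˣ) (x : ℕ → K) :
    ℕ → Finset α → K
  | 0, Y => if Y = ∅ then 1 else 0
  | N + 1, Y => ∑ S ∈ Y.powerset, if Stab E S then
      x N ^ S.card * V v (pr E (Y \ S) S) * XX E v x N (Y \ S) else 0

noncomputable def DD (E : α → α → Prop) [DecidableRel E] (v : Kˣ) (x : ℕ → K) (m : α) (j : ℕ)
    (N : ℕ) (U : Finset α) : K :=
  ∑ C ∈ U.powerset, ez x N (((bs m U C).card : ℤ) - j) * TT E v m (bs m U C)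
    * qi v (((bs m U C).card : ℤ) - j - pr E (bs m U C) C) * XX E v x N C

theorem pr_neg (A C : Finset α) : pr E A C = - pr E C A := by unfold pr; ring

theorem dg_union {C S : Finset α} (h : Disjoint C S) (w : α) :
    dg E (C ∪ S) w = dg E C w + dg E S w := by
  unfold dg
  rw [filter_union, card_union_of_disjoint]
  exact disjoint_filter_filter h

theorem pr_union_right {A C S : Finset α} (h : Disjoint C S) :
    pr E A (C ∪ S) = pr E A C + pr E A S := by
  unfold pr
  rw [sum_union h]
  simp only [dg_union h, Nat.cast_add, sum_add_distrib]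
  ring

theorem pr_union_left {A C S : Finset α} (h : Disjoint C S) :
    pr E (C ∪ S) A = pr E C A + pr E S A := by
  rw [pr_neg, pr_union_right h, pr_neg A C, pr_neg A S]; ring

theorem sum_split1 {M : Type*} [AddCommMonoid M] (U : Finset α)
    (f : Finset α → Finset α → M) :
    ∑ C' ∈ U.powerset, ∑ S ∈ C'.powerset, f (C' \ S) S
      = ∑ C ∈ U.powerset, ∑ S ∈ (U \ C).powerset, f C S := by
  rw [sum_sigma', sum_sigma']
  refine sum_bij' (fun p _ => ⟨p.1 \ p.2, p.2⟩) (fun p _ => ⟨p.1 ∪ p.2, p.2⟩) ?_ ?_ ?_ ?_ ?_
  · rintro ⟨C', S⟩ h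
    simp only [mem_sigma, mem_powerset] at h ⊢
    refine ⟨sdiff_subset.trans h.1, ?_⟩
    intro x hx
    rw [mem_sdiff, mem_sdiff]
    exact ⟨h.1 (h.2 hx), fun h' => h'.2 hx⟩
  · rintro ⟨C, S⟩ h
    simp only [mem_sigma, mem_powerset] at h ⊢
    refine ⟨union_subset h.1 (h.2.trans sdiff_subset), subset_union_right⟩
  · rintro ⟨C', S⟩ h
    simp only [mem_sigma, mem_powerset] at h
    simp only [Sigma.mk.injEq, heq_eq_eq, and_true]
    exact sdiff_union_of_subset h.2
  · rintro ⟨C, S⟩ h
    simp only [mem_sigma, mem_powerset] at h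
    simp only [Sigma.mk.injEq, heq_eq_eq, and_true]
    have hd : Disjoint C S := by
      rw [disjoint_left]; intro x hx hx2
      have := h.2 hx2
      rw [mem_sdiff] at this
      exact this.2 hx
    rw [union_sdiff_right]
    exact sdiff_eq_self_of_disjoint hd
  · rintro ⟨C', S⟩ h
    rfl

theorem sum_swap2 {M : Type*} [AddCommMonoid M] (U : Finset α)
    (g : Finset α → Finset α → M) :
    ∑ S ∈ U.powerset, ∑ C ∈ (U \ S).powerset, g C S
      = ∑ C ∈ U.powerset, ∑ S ∈ (U \ C).powerset, g C S := by
  apply sum_comm'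
  intro S C
  simp only [mem_powerset]
  constructor
  · rintro ⟨h1, h2⟩
    refine ⟨?_, h2.trans sdiff_subset⟩
    intro x hx
    rw [mem_sdiff]
    refine ⟨h1 hx, fun h => ?_⟩
    have := h2 h
    rw [mem_sdiff] at this
    exact this.2 hx
  · rintro ⟨h1, h2⟩
    refine ⟨h1.trans sdiff_subset, ?_⟩
    intro x hx
    rw [mem_sdiff]
    refine ⟨h2 hx, fun h => ?_⟩
    have := h1 h
    rw [mem_sdiff] at this
    exact this.2 hx

theorem bs_union {m : α} {U C S : Finset α} :
    bs m U (C ∪ S) = bs m (U \ C) S := by
  unfold bs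
  congr 1
  ext x; simp only [mem_sdiff, mem_union]; tauto

/-- left hand term -/
noncomputable def LT (E : α → α → Prop) [DecidableRel E] (v : Kˣ) (x : ℕ → K) (m : α) (j N : ℕ)
    (W C S : Finset α) : K :=
  (V v 1 - V v (-1)) * (ez x (N + 1) (((bs m W S).card : ℤ) - j) * TT E v m (bs m W S)
    * qi v (((bs m W S).card : ℤ) - j - pr E (bs m W S) (C ∪ S)))
    * (x N ^ S.card * V v (pr E C S))

/-- right hand term -/
noncomputable def RT (E : α → α → Prop) [DecidableRel E] (v : Kˣ) (x : ℕ → K) (m : α) (j N : ℕ)
    (W C S : Finset α) : K :=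
  (V v 1 - V v (-1)) * (x N ^ S.card * V v (pr E (bs m W S ∪ C) S)
    * (ez x N (((bs m W S).card : ℤ) - j) * TT E v m (bs m W S)
          * qi v (((bs m W S).card : ℤ) - j - pr E (bs m W S) C)
      + x N * V v (-1) * (ez x N (((bs m W S).card : ℤ) - (j + 1 : ℕ)) * TT E v m (bs m W S)
          * qi v (((bs m W S).card : ℤ) - (j + 1 : ℕ) - pr E (bs m W S) C))))

/-- the identity for a fixed `C`. -/
theorem fixedC (hE : UI E) (x : ℕ → K) (m : α) (j N : ℕ) (W C : Finset α)
    (hWm : ∀ u ∈ W, m < u) (hCm : m ∉ C) (hWC : Disjoint W C) :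
    ∑ S ∈ W.powerset, (if Stab E S then
        LT E v x m j N W C S - RT E v x m j N W C S else 0)
      = (V v 1 - V v (-1)) * (if j = 0 ∧ Stab E (insert m W) then
          x N ^ (W.card + 1) * V v (pr E C (insert m W)) else 0) := by
  have hmW : m ∉ W := fun h => lt_irrefl _ (hWm m h)
  have hdWC : Disjoint (insert m W) C := by
    rw [disjoint_insert_left]; exact ⟨hCm, hWC⟩
  set a := pr E (insert m W) C with ha
  obtain ⟨hR, _⟩ := main v hE m W hWm
  let G : ℕ → K := fun k => x N ^ (W.card + 2 - k) * ez x N ((k : ℤ) - 1 - j) * V v ((k : ℤ) - 1 - j)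
  have hRG := hR G
  -- expand RR
  have hex : ∀ S ∈ W.powerset, Stab E S →
      LT E v x m j N W C S - RT E v x m j N W C S
      = V v (-a) * (TT E v m (bs m W S) * V v ((-1) * pr E (bs m W S) S)
            * (sh G (bs m W S).card + V v 1 * G (bs m W S).card)
          - TT E v m (bs m W S) * V v (1 * pr E (bs m W S) S)
            * (sh G (bs m W S).card + V v (-1) * G (bs m W S).card)) := by
    intro S hS hst
    have hSW : S ⊆ W := mem_powerset.mp hS
    set B := bs m W S with hB
    have hBS : B ∪ S = insert m W := by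
      rw [hB]; unfold bs
      ext y; simp only [mem_union, mem_insert, mem_sdiff]
      constructor
      · rintro ((h | ⟨h, _⟩) | h)
        · exact Or.inl h
        · exact Or.inr h
        · exact Or.inr (hSW h)
      · rintro (h | h)
        · exact Or.inl (Or.inl h)
        · by_cases hy : y ∈ S
          · exact Or.inr hy
          · exact Or.inl (Or.inr ⟨h, hy⟩)
    have hdBS : Disjoint B S := by
      rw [disjoint_left]; intro y hy hyS
      rw [hB] at hy; unfold bs at hy
      rw [mem_insert, mem_sdiff] at hy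
      rcases hy with rfl | hy
      · exact hmW (hSW hyS)
      · exact hy.2 hyS
    have hcard : B.card + S.card = W.card + 1 := by
      rw [← card_union_of_disjoint hdBS, hBS, card_insert_of_notMem hmW]
    have hBpos : 1 ≤ B.card := by
      apply card_pos.mpr
      exact ⟨m, by rw [hB]; unfold bs; exact mem_insert_self _ _⟩
    have hdCS : Disjoint C S := by
      rw [disjoint_left]; intro y hy hyS
      exact (disjoint_left.mp hWC) (hSW hyS) hy
    unfold LT RT
    rw [← hB]
    have hdBC : Disjoint B C := by
      apply disjoint_of_subset_left _ hdWC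
      rw [← hBS]; exact subset_union_left
    have p1 : pr E B (C ∪ S) = pr E B C + pr E B S := pr_union_right hdCS
    have p2 : pr E (B ∪ C) S = pr E B S + pr E C S := pr_union_left hdBC
    have p3 : pr E C S = pr E B C - a := by
      have h1 : a = pr E B C + pr E S C := by
        rw [ha, ← hBS, pr_union_left hdBS]
      rw [pr_neg C S, h1]; ring
    set i : ℤ := (B.card : ℤ) with hi
    have g1 : sh G B.card = x N ^ S.card * ez x N (i - j) * V v (i - j) := by
      have e1 : W.card + 2 - (B.card + 1) = S.card := by omega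
      have e2 : (((B.card + 1 : ℕ)) : ℤ) - 1 - j = i - j := by push_cast; ring
      change x N ^ (W.card + 2 - (B.card + 1)) * ez x N ((((B.card + 1 : ℕ)) : ℤ) - 1 - j)
        * V v ((((B.card + 1 : ℕ)) : ℤ) - 1 - j) = _
      rw [e1, e2]
    have g2 : G B.card = x N ^ S.card * x N * ez x N (i - j - 1) * V v (i - j - 1) := by
      have e1 : W.card + 2 - B.card = S.card + 1 := by omega
      have e2 : ((B.card : ℕ) : ℤ) - 1 - j = i - j - 1 := by rw [hi]; ring
      change x N ^ (W.card + 2 - B.card) * ez x N (((B.card : ℕ) : ℤ) - 1 - j)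
        * V v (((B.card : ℕ) : ℤ) - 1 - j) = _
      rw [e1, e2, pow_succ]
    rw [g1, g2, p1, p2, p3]
    have hez : ez x (N + 1) (i - j) = ez x N (i - j) + x N * ez x N (i - j - 1) := rfl
    rw [hez]
    have q1 := qi_mul v (i - j - (pr E B C + pr E B S))
    have q2 := qi_mul v (i - j - pr E B C)
    have q3 := qi_mul v (i - (j + 1 : ℕ) - pr E B C)
    have ej : i - ((j + 1 : ℕ) : ℤ) = i - j - 1 := by push_cast; ring
    rw [ej] at q3 ⊢
    -- exponent splitting
    have w1 : V v (i - j - (pr E B C + pr E B S)) = V v (i - j) * V v (-(pr E B C)) * V v (-(pr E B S)) := by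
      rw [← V_add, ← V_add]; congr 1; ring
    have w2 : V v (-(i - j - (pr E B C + pr E B S))) = V v (-(i - j)) * V v (pr E B C) * V v (pr E B S) := by
      rw [← V_add, ← V_add]; congr 1; ring
    have w3 : V v (i - j - pr E B C) = V v (i - j) * V v (-(pr E B C)) := by
      rw [← V_add]; congr 1
    have w4 : V v (-(i - j - pr E B C)) = V v (-(i - j)) * V v (pr E B C) := by
      rw [← V_add]; congr 1; ring
    have w5 : V v (i - j - 1 - pr E B C) = V v (i - j) * V v (-1) * V v (-(pr E B C)) := by
      rw [← V_add, ← V_add]; congr 1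
    have w6 : V v (-(i - j - 1 - pr E B C)) = V v (-(i - j)) * V v 1 * V v (pr E B C) := by
      rw [← V_add, ← V_add]; congr 1; ring
    have w7 : V v (i - j - 1) = V v (i - j) * V v (-1) := by
      rw [← V_add]; congr 1
    have w8 : V v (pr E B C - a) = V v (pr E B C) * V v (-a) := by
      rw [← V_add]; congr 1
    have w9 : V v (pr E B S + (pr E B C - a)) = V v (pr E B S) * V v (pr E B C) * V v (-a) := by
      rw [← V_add, ← V_add]; congr 1; ring
    have w10 : V v (-1 * pr E B S) = V v (-(pr E B S)) := by congr 1; ring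
    have w11 : V v (1 * pr E B S) = V v (pr E B S) := by congr 1; ring
    rw [w1, w2] at q1
    rw [w3, w4] at q2
    rw [w5, w6] at q3
    rw [w7, w8, w9, w10, w11]
    have u1 : V v 1 * V v (-1) = 1 := V_mul_neg v 1
    have u2 : V v (pr E B C) * V v (-(pr E B C)) = 1 := V_mul_neg v _
    have u3 : V v (pr E B S) * V v (-(pr E B S)) = 1 := V_mul_neg v _
    generalize V v (i - j) = ij at *
    generalize V v (-(i - j)) = ij' at *
    generalize V v (pr E B C) = c at *
    generalize V v (-(pr E B C)) = c' at *
    generalize V v (pr E B S) = t at *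
    generalize V v (-(pr E B S)) = t' at *
    generalize V v (-a) = aa at *
    generalize V v 1 = vv at *
    generalize V v (-1) = vv' at *
    generalize TT E v m B = tt at *
    generalize qi v (i - j - (pr E B C + pr E B S)) = Q1 at *
    generalize qi v (i - j - pr E B C) = Q2 at *
    generalize qi v (i - j - 1 - pr E B C) = Q3 at *
    generalize ez x N (i - j) = z0 at *
    generalize ez x N (i - j - 1) = z1 at *
    generalize x N ^ S.card = y at *
    generalize x N = xn at *
    linear_combination ((z0 + xn * z1) * tt * y * c * aa) * q1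
      - (y * t * c * aa * z0 * tt) * q2 - (y * t * c * aa * xn * vv' * z1 * tt) * q3
      + (xn * z1 * tt * y * c ^ 2 * aa * t * ij') * u1
      + (xn * z1 * tt * y * aa * ij * t') * (u2 - u1)
      - (vv' ^ 2 * xn * z1 * tt * y * aa * t * ij) * u2
      - (z0 * tt * y * aa * t * ij) * u2 + (z0 * tt * y * aa * ij * t') * u2
  have hsum : ∑ S ∈ W.powerset, (if Stab E S then
        LT E v x m j N W C S - RT E v x m j N W C S else 0)
      = V v (-a) * ((AA E v m (-1) ∅ (sh G) W + V v 1 * AA E v m (-1) ∅ G W)
        - (AA E v m 1 ∅ (sh G) W + V v (-1) * AA E v m 1 ∅ G W)) := by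
    rw [AA_eq, AA_eq, AA_eq, AA_eq, mul_sum, mul_sum, ← sum_add_distrib, ← sum_add_distrib,
      ← sum_sub_distrib, mul_sum]
    apply sum_congr rfl
    intro S hS
    by_cases hst : Stab E S
    · rw [if_pos hst, hex S hS hst]
      simp only [disjoint_empty_right, and_true, if_pos hst]
      ring
    · simp only [if_neg hst, disjoint_empty_right, and_true]
      ring
  rw [hsum]
  have hG1 : G 1 = if j = 0 then x N ^ (W.card + 1) else 0 := by
    change x N ^ (W.card + 2 - 1) * ez x N (((1 : ℕ) : ℤ) - 1 - j)
        * V v (((1 : ℕ) : ℤ) - 1 - j) = _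
    have e1 : W.card + 2 - 1 = W.card + 1 := by omega
    rw [e1]
    by_cases hj : j = 0
    · subst hj
      rw [if_pos rfl]
      simp [ez_zero, V_zero]
    · rw [if_neg hj]
      rw [ez_neg x N]
      · ring
      · have : (0 : ℤ) < j := by exact_mod_cast Nat.pos_of_ne_zero hj
        push_cast
        omega
  have hpa : pr E C (insert m W) = -a := by rw [ha]; exact pr_neg _ _
  rw [hpa]
  have key : (AA E v m (-1) ∅ (sh G) W + V v 1 * AA E v m (-1) ∅ G W)
        - (AA E v m 1 ∅ (sh G) W + V v (-1) * AA E v m 1 ∅ G W)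
        = (V v 1 - V v (-1)) * kap E K m W * G 1 := by
    linear_combination - hRG
  rw [key, hG1]
  unfold kap
  by_cases hj : j = 0
  · by_cases hs : Stab E (insert m W)
    · rw [if_pos hj, if_pos hs, if_pos ⟨hj, hs⟩]; ring
    · have hn : ¬ (j = 0 ∧ Stab E (insert m W)) := fun h => hs h.2
      rw [if_neg hs, if_neg hn]; ring
  · have hn : ¬ (j = 0 ∧ Stab E (insert m W)) := fun h => hj h.1
    rw [if_neg hj, if_neg hn]; ring

theorem DD_zero (x : ℕ → K) (m : α) (j : ℕ) (U : Finset α) :
    DD E v x m j 0 U = 0 := by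
  unfold DD
  apply sum_eq_zero
  intro C _
  by_cases hC : C = ∅
  · subst hC
    have hp : pr E (bs m U ∅) ∅ = 0 := by simp [pr, dg]
    rw [hp, sub_zero]
    by_cases h : (((bs m U ∅).card : ℤ) - j) = 0
    · rw [h, qi_zero]; ring
    · have : ez x 0 (((bs m U ∅).card : ℤ) - j) = 0 := by simp [ez, h]
      rw [this]; ring
  · have : XX E v x 0 C = 0 := by simp [XX, hC]
    rw [this]; ring

theorem step (hE : UI E) (x : ℕ → K) (m : α) (j N : ℕ) (U : Finset α)
    (hU : ∀ u ∈ U, m < u) :
    (V v 1 - V v (-1)) * DD E v x m j (N + 1) U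
      = (V v 1 - V v (-1)) *
        ((∑ S ∈ U.powerset, if Stab E S then
            x N ^ S.card * V v (pr E (insert m (U \ S)) S)
              * (DD E v x m j N (U \ S) + x N * V v (-1) * DD E v x m (j + 1) N (U \ S)) else 0)
        + (if j = 0 then ∑ S ∈ U.powerset, (if Stab E (insert m S) then
            x N ^ (insert m S).card * V v (pr E (U \ S) (insert m S)) * XX E v x N (U \ S)
              else 0) else 0)) := by
  have hmU : m ∉ U := fun h => lt_irrefl _ (hU m h)
  -- left side as a double sum over (C, S)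
  have hL : (V v 1 - V v (-1)) * DD E v x m j (N + 1) U
      = ∑ C ∈ U.powerset, ∑ S ∈ (U \ C).powerset, (if Stab E S then
          LT E v x m j N (U \ C) C S * XX E v x N C else 0) := by
    rw [← sum_split1 U (fun C S => if Stab E S then
          LT E v x m j N (U \ C) C S * XX E v x N C else 0)]
    unfold DD
    rw [mul_sum]
    apply sum_congr rfl
    intro C' hC'
    have hC'U : C' ⊆ U := mem_powerset.mp hC'
    have hx : XX E v x (N + 1) C' = ∑ S ∈ C'.powerset, if Stab E S then
      x N ^ S.card * V v (pr E (C' \ S) S) * XX E v x N (C' \ S) else 0 := rfl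
    rw [hx, mul_sum, mul_sum]
    apply sum_congr rfl
    intro S hS
    have hSC : S ⊆ C' := mem_powerset.mp hS
    by_cases hst : Stab E S
    · rw [if_pos hst, if_pos hst]
      unfold LT
      have e1 : C' \ S ∪ S = C' := sdiff_union_of_subset hSC
      have e2 : bs m (U \ (C' \ S)) S = bs m U C' := by
        rw [← bs_union, e1]
      rw [e1, e2]
      ring
    · rw [if_neg hst, if_neg hst]; ring
  have hR1 : (V v 1 - V v (-1)) *
        (∑ S ∈ U.powerset, if Stab E S then
            x N ^ S.card * V v (pr E (insert m (U \ S)) S)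
              * (DD E v x m j N (U \ S) + x N * V v (-1) * DD E v x m (j + 1) N (U \ S)) else 0)
      = ∑ C ∈ U.powerset, ∑ S ∈ (U \ C).powerset, (if Stab E S then
          RT E v x m j N (U \ C) C S * XX E v x N C else 0) := by
    rw [← sum_swap2 U (fun C S => if Stab E S then
          RT E v x m j N (U \ C) C S * XX E v x N C else 0), mul_sum]
    apply sum_congr rfl
    intro S hS
    have hSU : S ⊆ U := mem_powerset.mp hS
    by_cases hst : Stab E S
    · rw [if_pos hst]
      unfold DD
      rw [mul_sum, ← sum_add_distrib, mul_sum, mul_sum]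
      apply sum_congr rfl
      intro C hC
      have hCU : C ⊆ U \ S := mem_powerset.mp hC
      rw [if_pos hst]
      unfold RT
      have e1 : bs m (U \ S) C = bs m (U \ C) S := by
        rw [← bs_union, ← bs_union, union_comm]
      have e2 : bs m (U \ C) S ∪ C = insert m (U \ S) := by
        unfold bs
        ext y
        simp only [mem_union, mem_insert, mem_sdiff]
        constructor
        · rintro ((h | ⟨⟨h1, _⟩, h3⟩) | h)
          · exact Or.inl h
          · exact Or.inr ⟨h1, h3⟩
          · have := hCU h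
            rw [mem_sdiff] at this
            exact Or.inr this
        · rintro (h | ⟨h1, h3⟩)
          · exact Or.inl (Or.inl h)
          · by_cases hy : y ∈ C
            · exact Or.inr hy
            · exact Or.inl (Or.inr ⟨⟨h1, hy⟩, h3⟩)
      rw [e1, e2]
      ring
    · rw [if_neg hst, mul_zero]
      symm
      apply sum_eq_zero
      intro C _
      rw [if_neg hst]
  have hR2 : (V v 1 - V v (-1)) * (if j = 0 then ∑ S ∈ U.powerset, (if Stab E (insert m S) then
            x N ^ (insert m S).card * V v (pr E (U \ S) (insert m S)) * XX E v x N (U \ S)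
              else 0) else 0)
      = ∑ C ∈ U.powerset, (V v 1 - V v (-1)) * (if j = 0 ∧ Stab E (insert m (U \ C)) then
          x N ^ ((U \ C).card + 1) * V v (pr E C (insert m (U \ C))) else 0)
            * XX E v x N C := by
    by_cases hj : j = 0
    · rw [if_pos hj, mul_sum]
      refine sum_bij' (fun S _ => U \ S) (fun C _ => U \ C) ?_ ?_ ?_ ?_ ?_
      · intro S _; rw [mem_powerset]; exact sdiff_subset
      · intro S _; rw [mem_powerset]; exact sdiff_subset
      · intro S hS; exact Finset.sdiff_sdiff_eq_self (mem_powerset.mp hS)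
      · intro S hS; exact Finset.sdiff_sdiff_eq_self (mem_powerset.mp hS)
      · intro S hS
        have hSU : S ⊆ U := mem_powerset.mp hS
        have e : U \ (U \ S) = S := Finset.sdiff_sdiff_eq_self hSU
        have hmS : m ∉ S := fun h => hmU (hSU h)
        simp only [e]
        by_cases hst : Stab E (insert m S)
        · rw [if_pos hst, if_pos ⟨hj, hst⟩, card_insert_of_notMem hmS]; ring
        · have hn : ¬ (j = 0 ∧ Stab E (insert m S)) := fun h => hst h.2
          rw [if_neg hst, if_neg hn]; ring
    · rw [if_neg hj, mul_zero]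
      symm
      apply sum_eq_zero
      intro C _
      have hn : ¬ (j = 0 ∧ Stab E (insert m (U \ C))) := fun h => hj h.1
      rw [if_neg hn]; ring
  rw [mul_add, hL, hR1, hR2, ← sum_add_distrib]
  apply sum_congr rfl
  intro C hC
  have hCU : C ⊆ U := mem_powerset.mp hC
  have hf := fixedC v hE x m j N (U \ C) C (fun u hu => hU u (mem_sdiff.mp hu).1)
    (fun h => hmU (hCU h)) sdiff_disjoint
  rw [← hf]
  rw [sum_mul, ← sum_add_distrib]
  apply sum_congr rfl
  intro S _
  by_cases hst : Stab E S
  · rw [if_pos hst, if_pos hst, if_pos hst]; ring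
  · rw [if_neg hst, if_neg hst, if_neg hst]; ring

/-- regularity of `v - v⁻¹` -/
def Reg (v : Kˣ) : Prop := ∀ a b : K, (V v 1 - V v (-1)) * a = (V v 1 - V v (-1)) * b → a = b

theorem DD_eq (hE : UI E) (hreg : Reg v) (x : ℕ → K) (m : α) (N : ℕ) :
    ∀ (j : ℕ) (U : Finset α), (∀ u ∈ U, m < u) →
    DD E v x m j N U = if j = 0 then XX E v x N (insert m U) else 0 := by
  induction N with
  | zero =>
    intro j U _
    rw [DD_zero]
    simp [XX]
  | succ N ih =>
    intro j U hU
    have hmU : m ∉ U := fun h => lt_irrefl _ (hU m h)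
    apply hreg
    rw [step v hE x m j N U hU]
    congr 1
    have h1 : ∀ S ∈ U.powerset, (if Stab E S then
            x N ^ S.card * V v (pr E (insert m (U \ S)) S)
              * (DD E v x m j N (U \ S) + x N * V v (-1) * DD E v x m (j + 1) N (U \ S)) else 0)
        = if j = 0 then (if Stab E S then x N ^ S.card * V v (pr E (insert m U \ S) S)
              * XX E v x N (insert m U \ S) else 0) else 0 := by
      intro S hS
      have hSU : S ⊆ U := mem_powerset.mp hS
      have hmS : m ∉ S := fun h => hmU (hSU h)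
      have hU' : ∀ u ∈ U \ S, m < u := fun u hu => hU u (mem_sdiff.mp hu).1
      have e : insert m U \ S = insert m (U \ S) := insert_sdiff_of_notMem _ hmS
      rw [ih j _ hU', ih (j + 1) _ hU', e, if_neg (Nat.succ_ne_zero j)]
      split_ifs <;> ring
    rw [sum_congr rfl h1]
    by_cases hj : j = 0
    · simp only [if_pos hj]
      have hx : XX E v x (N + 1) (insert m U) = ∑ S ∈ (insert m U).powerset, if Stab E S then
        x N ^ S.card * V v (pr E (insert m U \ S) S) * XX E v x N (insert m U \ S) else 0 := rfl
      rw [hx, sum_powerset_insert hmU]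
      congr 1
      apply sum_congr rfl
      intro S hS
      have hSU : S ⊆ U := mem_powerset.mp hS
      have e : insert m U \ insert m S = U \ S := by
        ext y; simp only [mem_sdiff, mem_insert]
        constructor
        · rintro ⟨g1, g2⟩
          rcases g1 with g1 | g1
          · exact absurd (Or.inl g1) g2
          · exact ⟨g1, fun g3 => g2 (Or.inr g3)⟩
        · rintro ⟨g1, g2⟩
          refine ⟨Or.inr g1, ?_⟩
          rintro (g3 | g3)
          · rw [g3] at g1; exact hmU g1
          · exact g2 g3
      rw [e]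
    · simp only [if_neg hj, sum_const_zero, add_zero]

/-- **THE LINK**: `X_V = SUM_{B ∋ m} e_|B| T(B) [|B| - <B, V-B>] X_{V-B}`, `m = min V`,
`V = insert m U`, the sum is over `C = V - B ⊆ U`, `bs m U C = insert m (U \ C) = B`. -/
theorem link (hE : UI E) (hreg : Reg v) (x : ℕ → K) (m : α) (N : ℕ) (U : Finset α)
    (hU : ∀ u ∈ U, m < u) :
    XX E v x N (insert m U) = ∑ C ∈ U.powerset,
      ez x N ((bs m U C).card) * TT E v m (bs m U C)
        * qi v (((bs m U C).card : ℤ) - pr E (bs m U C) C) * XX E v x N C := by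
  have h := DD_eq v hE hreg x m N 0 U hU
  rw [if_pos rfl] at h
  rw [← h]
  unfold DD
  simp only [Nat.cast_zero, sub_zero]

end

end Crest.Agent.R59.Link321
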