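import Crest.Agent.R059.EPos
import Crest.Agent.R059.Theta

/-!
R59 (S0081): the reduction of the whole row to the `q`-free statement `POS`
(helpers 977, 53, 951, 427): for every flip class `γ` of words the class function
`∑_{σ ∈ γ} Q h σ N` is a nonnegative combination of elementary symmetric polynomials.
-/

set_option autoImplicit false

open Crest.CombinatoricsR.UnitInterval

namespace Crest.Agent.R59.Pos613

open Crest.Agent.R059

variable {n N : ℕ}

/-- inversions, written with values. -/
def I (h : Fin n → ℕ) (σ : Equiv.Perm (Fin n)) : Finset (Fin n × Fin n) :=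
  Finset.univ.filter (fun p => p.1 < p.2 ∧ IsEdge h p.1 p.2 ∧ σ.symm p.2 < σ.symm p.1)

theorem mem_I {h : Fin n → ℕ} {σ : Equiv.Perm (Fin n)} {p : Fin n × Fin n} :
    p ∈ I h σ ↔ p.1 < p.2 ∧ IsEdge h p.1 p.2 ∧ σ.symm p.2 < σ.symm p.1 := by
  simp [I]

theorem ginv_eq (h : Fin n → ℕ) (σ : Equiv.Perm (Fin n)) : ginv h σ = (I h σ).card := by
  unfold ginv I
  apply Finset.card_bij (fun (p : Fin n × Fin n) _ => (σ p.2, σ p.1))
  · rintro ⟨i, j⟩ hp
    simp only [Finset.mem_filter, Finset.mem_univ, true_and] at hp ⊢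
    obtain ⟨h1, h2, h3⟩ := hp
    exact ⟨h2, isEdge_symm h3, by simpa using h1⟩
  · rintro ⟨i, j⟩ _ ⟨i', j'⟩ _ heq
    simp only [Prod.mk.injEq, EmbeddingLike.apply_eq_iff_eq] at heq
    simp [heq.1, heq.2]
  · rintro ⟨a, b⟩ hp
    simp only [Finset.mem_filter, Finset.mem_univ, true_and] at hp
    obtain ⟨h1, h2, h3⟩ := hp
    refine ⟨(σ.symm b, σ.symm a), ?_, by simp⟩
    simp only [Finset.mem_filter, Finset.mem_univ, true_and, Equiv.apply_symm_apply]
    exact ⟨h3, h1, isEdge_symm h2⟩

/-- One flip of a word `σ 0, σ 1, …`: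
(R1) two neighbouring letters which are not adjacent in the graph are exchanged;
(R2) `b a c → a c b` where `a < b < c`, `a, c` not adjacent, `b` adjacent to both
(the positions `i, j, k` are consecutive). -/
inductive Step (h : Fin n → ℕ) : Equiv.Perm (Fin n) → Equiv.Perm (Fin n) → Prop
  | comm (σ τ : Equiv.Perm (Fin n)) (i j : Fin n) (hij : j.val = i.val + 1)
      (hne : ¬ IsEdge h (σ i) (σ j)) (h1 : τ i = σ j) (h2 : τ j = σ i)
      (h3 : ∀ l, l ≠ i → l ≠ j → τ l = σ l) : Step h σ τ
  | flip (σ τ : Equiv.Perm (Fin n)) (i j k : Fin n) (hij : j.val = i.val + 1)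
      (hjk : k.val = j.val + 1) (hab : σ j < σ i) (hbc : σ i < σ k)
      (hac : ¬ IsEdge h (σ j) (σ k)) (eab : IsEdge h (σ j) (σ i)) (ebc : IsEdge h (σ i) (σ k))
      (h1 : τ i = σ j) (h2 : τ j = σ k) (h3 : τ k = σ i)
      (h4 : ∀ l, l ≠ i → l ≠ j → l ≠ k → τ l = σ l) : Step h σ τ

theorem Step.ginv {h : Fin n → ℕ} {σ τ : Equiv.Perm (Fin n)} (hs : Step h σ τ) :
    ginv h σ = ginv h τ := by
  rw [ginv_eq, ginv_eq]
  cases hs with
  | comm i j hij hne h1 h2 h3 =>
    have hI : I h σ = I h τ := by
      ext ⟨u, w⟩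
      rw [mem_I, mem_I]
      refine and_congr_right fun huw => and_congr_right fun he => ?_
      obtain ⟨x, rfl⟩ := σ.surjective u
      obtain ⟨y, rfl⟩ := σ.surjective w
      simp only [Equiv.symm_apply_apply]
      have key : ∀ l, (τ.symm (σ l)) = if l = i then j else if l = j then i else l := by
        intro l
        rw [Equiv.symm_apply_eq]
        split_ifs with c1 c2
        · rw [c1, h2]
        · rw [c2, h1]
        · rw [h3 l c1 c2]
      rw [key x, key y]
      have hxy : ¬ (x = i ∧ y = j) := by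
        rintro ⟨rfl, rfl⟩; exact hne he
      have hyx : ¬ (x = j ∧ y = i) := by
        rintro ⟨rfl, rfl⟩; exact hne (isEdge_symm he)
      rw [Fin.ext_iff, Fin.ext_iff] at hxy hyx
      simp only [Fin.lt_def, Fin.ext_iff, apply_ite Fin.val]
      split_ifs <;> omega
    rw [hI]
  | flip i j k hij hjk hab hbc hac eab ebc h1 h2 h3 h4 =>
    have key : ∀ l, (τ.symm (σ l)) =
        if l = i then k else if l = j then i else if l = k then j else l := by
      intro l
      rw [Equiv.symm_apply_eq]
      split_ifs with c1 c2 c3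
      · rw [c1, h3]
      · rw [c2, h1]
      · rw [c3, h2]
      · rw [h4 l c1 c2 c3]
    have hI : I h τ = insert (σ i, σ k) ((I h σ).erase (σ j, σ i)) := by
      ext ⟨u, w⟩
      obtain ⟨x, rfl⟩ := σ.surjective u
      obtain ⟨y, rfl⟩ := σ.surjective w
      rw [Finset.mem_insert, Finset.mem_erase, mem_I, mem_I]
      simp only [Equiv.symm_apply_apply, key, Prod.mk.injEq, EmbeddingLike.apply_eq_iff_eq, ne_eq]
      by_cases e1 : x = i ∧ y = k
      · obtain ⟨rfl, rfl⟩ := e1
        simp only [and_self, true_or, iff_true]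
        refine ⟨hbc, ebc, ?_⟩
        simp only [Fin.lt_def, Fin.ext_iff, apply_ite Fin.val]
        split_ifs <;> omega
      · rw [or_iff_right e1]
        by_cases e2 : x = j ∧ y = i
        · obtain ⟨rfl, rfl⟩ := e2
          simp only [and_self, not_true_eq_false, false_and, iff_false, not_and]
          intro _ _
          simp only [Fin.lt_def, Fin.ext_iff, apply_ite Fin.val]
          split_ifs <;> omega
        · rw [show (¬(x = j ∧ y = i) ∧ σ x < σ y ∧ IsEdge h (σ x) (σ y) ∧ y < x) ↔
            (σ x < σ y ∧ IsEdge h (σ x) (σ y) ∧ y < x) from ⟨fun h => h.2, fun h => ⟨e2, h⟩⟩]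
          refine and_congr_right fun hxy => and_congr_right fun he => ?_
          have f1 : ¬ (x = i ∧ y = j) := by
            rintro ⟨rfl, rfl⟩; exact absurd hab (not_lt.2 hxy.le)
          have f2 : ¬ (x = k ∧ y = i) := by
            rintro ⟨rfl, rfl⟩; exact absurd hbc (not_lt.2 hxy.le)
          have f3 : ¬ (x = j ∧ y = k) := by
            rintro ⟨rfl, rfl⟩; exact hac he
          have f4 : ¬ (x = k ∧ y = j) := by
            rintro ⟨rfl, rfl⟩; exact hac (isEdge_symm he)
          rw [Fin.ext_iff, Fin.ext_iff] at e1 e2 f1 f2 f3 f4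
          simp only [Fin.lt_def, Fin.ext_iff, apply_ite Fin.val]
          split_ifs <;> omega
    have m1 : (σ j, σ i) ∈ I h σ := by
      rw [mem_I]
      refine ⟨hab, eab, ?_⟩
      simp only [Equiv.symm_apply_apply, Fin.lt_def]; omega
    have m2 : (σ i, σ k) ∉ (I h σ).erase (σ j, σ i) := by
      rw [Finset.mem_erase, mem_I]
      simp only [Equiv.symm_apply_apply, Fin.lt_def, not_and]
      intro _ _ _
      omega
    rw [hI, Finset.card_insert_of_notMem m2, Finset.card_erase_of_mem m1]
    have := Finset.card_pos.2 ⟨_, m1⟩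
    omega

/-- flip equivalence. -/
def FlipEq (h : Fin n → ℕ) : Setoid (Equiv.Perm (Fin n)) := Relation.EqvGen.setoid (Step h)

theorem ginv_of_flipEq {h : Fin n → ℕ} {σ τ : Equiv.Perm (Fin n)}
    (hs : Relation.EqvGen (Step h) σ τ) : ginv h σ = ginv h τ := by
  induction hs with
  | rel _ _ h => exact h.ginv
  | refl _ => rfl
  | symm _ _ _ ih => exact ih.symm
  | trans _ _ _ _ _ ih1 ih2 => exact ih1.trans ih2

/-- the colour generating function of one word (weakly decreasing colours; equal colours only at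
descents `σ i > σ (i+1)` which are not edges). -/
noncomputable def Q (h : Fin n → ℕ) (σ : Equiv.Perm (Fin n)) (N : ℕ) : MvPolynomial (Fin N) ℤ :=
  ∑ g ∈ (Finset.univ : Finset (Fin n → Fin N)).filter (fun g => Compat h σ g),
    ∏ i : Fin n, MvPolynomial.X (g i)

open Classical in
/-- `POS` for one graph: every flip class is `e`-positive. -/
def POS (h : Fin n → ℕ) : Prop :=
  ∀ σ₀ : Equiv.Perm (Fin n), ∃ c : Nat.Partition n → ℕ, ∀ N : ℕ,
    ∑ σ ∈ Finset.univ.filter (fun σ => Relation.EqvGen (Step h) σ₀ σ), Q h σ N =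
      ∑ μ : Nat.Partition n, (c μ : MvPolynomial (Fin N) ℤ) * MvPolynomial.esymmPart (Fin N) ℤ μ

theorem map_esymmPart (N : ℕ) (μ : Nat.Partition n) :
    MvPolynomial.map (Int.castRingHom (Polynomial ℤ)) (MvPolynomial.esymmPart (Fin N) ℤ μ) =
      MvPolynomial.esymmPart (Fin N) (Polynomial ℤ) μ := by
  unfold MvPolynomial.esymmPart
  rw [map_multiset_prod, Multiset.map_map]
  congr 1
  apply Multiset.map_congr rfl
  intro k _
  exact MvPolynomial.map_esymm (Fin N) ℤ k (Int.castRingHom (Polynomial ℤ))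

theorem map_Q (h : Fin n → ℕ) (σ : Equiv.Perm (Fin n)) (N : ℕ) :
    MvPolynomial.map (Int.castRingHom (Polynomial ℤ)) (Q h σ N) =
      ∑ g ∈ (Finset.univ : Finset (Fin n → Fin N)).filter (fun g => Compat h σ g),
        ∏ i : Fin n, MvPolynomial.X (g i) := by
  unfold Q
  simp only [map_sum, map_prod, MvPolynomial.map_X]

theorem chromatic_eq {h : Fin n → ℕ} (hm : Monotone h) (N : ℕ) :
    chromaticQSym h N = ∑ σ : Equiv.Perm (Fin n), MvPolynomial.C (Polynomial.X ^ ginv h σ) *
      MvPolynomial.map (Int.castRingHom (Polynomial ℤ)) (Q h σ N) := by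
  unfold chromaticQSym
  rw [sum_proper hm]
  apply Finset.sum_congr rfl
  intro σ _
  rw [map_Q, Finset.mul_sum]
  apply Finset.sum_congr rfl
  intro g hg
  rw [Finset.mem_filter] at hg
  rw [hg.2.ascents_eq hm]
  congr 1
  exact (Equiv.prod_comp σ.symm (fun i => (MvPolynomial.X (g i) :
    MvPolynomial (Fin N) (Polynomial ℤ))))

theorem EPos_of_POS {h : Fin n → ℕ} (hm : Monotone h) (hP : POS h) : EPos h := by
  classical
  rw [EPos_iff]
  have hmain : ∀ N : ℕ, chromaticQSym h N =
      ∑ q : Quotient (FlipEq h), MvPolynomial.C (Polynomial.X ^ ginv h q.out) *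
        ∑ σ ∈ Finset.univ.filter (fun σ => Relation.EqvGen (Step h) q.out σ),
          MvPolynomial.map (Int.castRingHom (Polynomial ℤ)) (Q h σ N) := by
    intro N
    rw [chromatic_eq hm, ← Finset.sum_fiberwise_of_maps_to (s := Finset.univ)
      (t := (Finset.univ : Finset (Quotient (FlipEq h))))
      (g := fun σ => Quotient.mk (FlipEq h) σ) (fun _ _ => Finset.mem_univ _)]
    apply Finset.sum_congr rfl
    intro q _
    have hf : (Finset.univ.filter (fun σ => Quotient.mk (FlipEq h) σ = q)) =
        Finset.univ.filter (fun σ => Relation.EqvGen (Step h) q.out σ) := by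
      ext σ
      simp only [Finset.mem_filter, Finset.mem_univ, true_and]
      constructor
      · intro hq
        have : (FlipEq h).r q.out σ := by
          apply Quotient.exact (s := FlipEq h)
          rw [Quotient.out_eq, hq]
        exact this
      · intro hq
        rw [← Quotient.out_eq q]
        exact Quotient.sound (s := FlipEq h) ((FlipEq h).symm hq)
    rw [hf, Finset.mul_sum]
    apply Finset.sum_congr rfl
    intro σ hσ
    rw [Finset.mem_filter] at hσ
    rw [ginv_of_flipEq hσ.2]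
  have h0 : EP n (fun N => ∑ q : Quotient (FlipEq h),
      MvPolynomial.C (Polynomial.X ^ ginv h q.out) *
        ∑ σ ∈ Finset.univ.filter (fun σ => Relation.EqvGen (Step h) q.out σ),
          MvPolynomial.map (Int.castRingHom (Polynomial ℤ)) (Q h σ N)) := by
    apply EP.sum
    intro q _
    apply EP.smul' (Polynomial.X ^ ginv h q.out) ⟨Polynomial.X ^ ginv h q.out, by simp [R059.cast]⟩
    obtain ⟨c, hc⟩ := hP q.out
    refine ⟨fun μ => (c μ : Polynomial ℕ), fun N => ?_⟩
    show ∑ σ ∈ Finset.univ.filter (fun σ => Relation.EqvGen (Step h) q.out σ),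
          MvPolynomial.map (Int.castRingHom (Polynomial ℤ)) (Q h σ N) = _
    rw [← map_sum, hc N, map_sum]
    apply Finset.sum_congr rfl
    intro μ _
    rw [map_mul, map_esymmPart]
    simp [R059.cast]
  exact h0.congr rfl hmain

/-- **S0081 from `POS`.** -/
theorem result_of_POS (H : ∀ (n : ℕ) (h : Fin n → ℕ), IsHessenberg h → POS h) :
    ∀ (n : ℕ) (h : Fin n → ℕ), IsHessenberg h →
      ∃ θ : {σ : Equiv.Perm (Fin n) // σ ∈ descentSet h} → Nat.Partition n,
        ∀ N : ℕ, chromaticQSym h N =
          ∑ σ : {σ : Equiv.Perm (Fin n) // σ ∈ descentSet h},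
            MvPolynomial.C (Polynomial.X ^ ginv h σ.1) *
              MvPolynomial.esymmPart (Fin N) (Polynomial ℤ) (θ σ) :=
  main_of_EPos (fun n h hh => EPos_of_POS hh.1 (H n h hh))

end Crest.Agent.R59.Pos613
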