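import Crest.Agent.R59.Link321a

/-! R59 (S0081), line A: the block recursion for ANY integer skew form and the derivation
identity (D_c) (lead #14940), minimum version. -/

set_option autoImplicit false

namespace Crest.Agent.R59.Skew613

open Finset Link321

section qi

variable {K : Type*} [CommRing K] (v : Kˣ)

/-- `v - 1/v` is not a zero divisor. -/
def Reg (v : Kˣ) : Prop := ∀ a b : K, (V v 1 - V v (-1)) * a = (V v 1 - V v (-1)) * b → a = b

theorem qi_exch (hreg : Reg v) (p r x : ℤ) :
    qi v p * qi v (x + r) + qi v r * qi v (x - p) = qi v (p + r) * qi v x := by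
  apply hreg
  apply hreg
  have h1 := qi_mul v p
  have h2 := qi_mul v (x + r)
  have h3 := qi_mul v r
  have h4 := qi_mul v (x - p)
  have h5 := qi_mul v (p + r)
  have h6 := qi_mul v x
  have e1 : V v (x + r) = V v x * V v r := V_add v x r
  have e2 : V v (-(x + r)) = V v (-x) * V v (-r) := by rw [← V_add]; congr 1; ring
  have e3 : V v (x - p) = V v x * V v (-p) := by rw [← V_add]; congr 1
  have e4 : V v (-(x - p)) = V v (-x) * V v p := by rw [← V_add]; congr 1; ring
  have e5 : V v (p + r) = V v p * V v r := V_add v p r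
  have e6 : V v (-(p + r)) = V v (-p) * V v (-r) := by rw [← V_add]; congr 1; ring
  rw [e1, e2] at h2
  rw [e3, e4] at h4
  rw [e5, e6] at h5
  calc (V v 1 - V v (-1)) * ((V v 1 - V v (-1)) *
        (qi v p * qi v (x + r) + qi v r * qi v (x - p)))
      = ((V v 1 - V v (-1)) * qi v p) * ((V v 1 - V v (-1)) * qi v (x + r)) +
        ((V v 1 - V v (-1)) * qi v r) * ((V v 1 - V v (-1)) * qi v (x - p)) := by ring
    _ = ((V v 1 - V v (-1)) * qi v (p + r)) * ((V v 1 - V v (-1)) * qi v x) := by
        rw [h1, h2, h3, h4, h5, h6]; ring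
    _ = _ := by ring

end qi

variable {α : Type*} [LinearOrder α]

/-- pairing of two sets -/
def sp (a : α → α → ℤ) (A B : Finset α) : ℤ := ∑ x ∈ A, ∑ y ∈ B, a x y

/-- replace the letter `u` by `u + c`. -/
def shift (a : α → α → ℤ) (c : α → ℤ) (u x y : α) : ℤ :=
  a x y + (if x = u then c y else 0) - (if y = u then c x else 0)

theorem sp_congr {a a' : α → α → ℤ} {A B : Finset α} (h : ∀ x ∈ A, ∀ y ∈ B, a x y = a' x y) :
    sp a A B = sp a' A B :=
  sum_congr rfl fun x hx => sum_congr rfl fun y hy => h x hx y hy

theorem sp_shift_left (a : α → α → ℤ) (c : α → ℤ) {u : α} {A B : Finset α} (hA : u ∈ A)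
    (hB : u ∉ B) : sp (shift a c u) A B = sp a A B + ∑ y ∈ B, c y := by
  have : ∀ x ∈ A, ∑ y ∈ B, shift a c u x y =
      (∑ y ∈ B, a x y) + (if x = u then ∑ y ∈ B, c y else 0) := by
    intro x _
    unfold shift
    rw [sum_congr rfl (g := fun y => a x y + (if x = u then c y else 0)) (fun y hy => by
      have hy' : y ≠ u := fun h => hB (h ▸ hy)
      simp [hy']), sum_add_distrib]
    congr 1
    split_ifs <;> simp
  unfold sp
  rw [sum_congr rfl this, sum_add_distrib, sum_ite_eq' A u, if_pos hA]

theorem sp_shift_right (a : α → α → ℤ) (c : α → ℤ) {u : α} {A B : Finset α} (hA : u ∉ A)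
    (hB : u ∈ B) : sp (shift a c u) A B = sp a A B - ∑ x ∈ A, c x := by
  have : ∀ x ∈ A, ∑ y ∈ B, shift a c u x y = (∑ y ∈ B, a x y) - c x := by
    intro x hx
    unfold shift
    rw [sum_congr rfl (g := fun y => a x y - (if y = u then c x else 0)) (fun y _ => by
      have hx' : x ≠ u := fun h => hA (h ▸ hx)
      simp [hx']), sum_sub_distrib, sum_ite_eq' B u, if_pos hB]
  unfold sp
  rw [sum_congr rfl this, sum_sub_distrib]

theorem shift_off (a : α → α → ℤ) (c : α → ℤ) {u x y : α} (hx : x ≠ u) (hy : y ≠ u) :
    shift a c u x y = a x y := by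
  simp [shift, hx, hy]

variable {K : Type*} [CommRing K] (v : Kˣ) (e : ℕ → K)

/-- `T(m ∪ B)`, all letters of `B` larger than `m`. -/
noncomputable def TS (a : α → α → ℤ) (m : α) (B : Finset α) : K :=
  ∏ w ∈ B, qi v (sp a (insert m (B.filter (· < w))) {w})

theorem TS_insert (a : α → α → ℤ) (m w : α) (B : Finset α) (hB : ∀ u ∈ B, u < w) :
    TS v a m (insert w B) = qi v (sp a (insert m B) {w}) * TS v a m B := by
  have hw : w ∉ B := fun h => lt_irrefl _ (hB w h)
  unfold TS
  rw [prod_insert hw]
  congr 1
  · have : (insert w B).filter (· < w) = B := by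
      rw [filter_insert, if_neg (lt_irrefl _)]
      exact filter_true_of_mem hB
    rw [this]
  · apply prod_congr rfl
    intro u hu
    rw [filter_insert, if_neg (not_lt.2 (hB u hu).le)]

theorem TS_congr {a a' : α → α → ℤ} {m : α} {B : Finset α}
    (h : ∀ x ∈ insert m B, ∀ y ∈ insert m B, a x y = a' x y) : TS v a m B = TS v a' m B := by
  unfold TS
  apply prod_congr rfl
  intro w hw
  rw [sp_congr]
  intro x hx y hy
  rw [mem_singleton] at hy
  subst hy
  apply h x _ y (mem_insert_of_mem hw)
  rw [mem_insert] at hx ⊢
  rcases hx with h1 | h1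
  · exact Or.inl h1
  · exact Or.inr (mem_filter.1 h1).1

/-- the derivation identity for `T`. -/
theorem TS_deriv (hreg : Reg v) (a : α → α → ℤ) (c : α → ℤ) (m : α) (B : Finset α)
    (hB : ∀ u ∈ B, m < u) :
    ∑ u ∈ insert m B, qi v (c u) * TS v (shift a c u) m B =
      qi v (∑ u ∈ insert m B, c u) * TS v a m B := by
  induction B using Finset.induction_on_max with
  | empty => simp [TS]
  | insert w B hmax ih =>
    have hw : w ∉ B := fun h => lt_irrefl _ (hmax w h)
    have hmw : m < w := hB w (mem_insert_self _ _)
    have hwS : w ∉ insert m B := by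
      rw [mem_insert]; rintro (h | h)
      · exact absurd h hmw.ne'
      · exact hw h
    have ih' := ih (fun u hu => hB u (mem_insert_of_mem hu))
    rw [Finset.insert_comm m w B, sum_insert hwS, sum_insert hwS]
    rw [TS_insert v _ m w B hmax]
    have h1 : TS v (shift a c w) m B = TS v a m B := by
      apply TS_congr
      intro x hx y hy
      exact shift_off a c (fun h => hwS (h ▸ hx)) (fun h => hwS (h ▸ hy))
    rw [h1, sp_shift_right a c hwS (mem_singleton_self w)]
    have h2 : ∑ u ∈ insert m B, qi v (c u) * TS v (shift a c u) m (insert w B) =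
        qi v (sp a (insert m B) {w} + c w) *
          ∑ u ∈ insert m B, qi v (c u) * TS v (shift a c u) m B := by
      rw [mul_sum]
      apply sum_congr rfl
      intro u hu
      rw [TS_insert v _ m w B hmax, sp_shift_left a c hu
        (by rw [mem_singleton]; rintro rfl; exact hwS hu), sum_singleton]
      ring
    rw [h2, ih', TS_insert v _ m w B hmax]
    have := qi_exch v hreg (∑ u ∈ insert m B, c u) (c w) (sp a (insert m B) {w})
    have e1 : c w + ∑ u ∈ insert m B, c u = ∑ u ∈ insert m B, c u + c w := add_comm _ _
    rw [e1, ]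
    linear_combination (TS v a m B) * this

/-- the block recursion for any form -/
noncomputable def XS (a : α → α → ℤ) (S : Finset α) : K :=
  if h : S.Nonempty then
    ∑ C ∈ (S.erase (S.min' h)).powerset.attach,
      e ((bs (S.min' h) (S.erase (S.min' h)) C.1).card) *
        TS v a (S.min' h) (S.erase (S.min' h) \ C.1) *
        qi v (((bs (S.min' h) (S.erase (S.min' h)) C.1).card : ℤ) -
          sp a (bs (S.min' h) (S.erase (S.min' h)) C.1) C.1) * XS a C.1
  else 1
termination_by S.card
decreasing_by
  have hC := mem_powerset.1 C.2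
  exact lt_of_le_of_lt (card_le_card hC) (card_erase_lt_of_mem (min'_mem S h))

theorem XS_empty (a : α → α → ℤ) : XS v e a ∅ = 1 := by
  rw [XS]; simp

theorem XS_insert (a : α → α → ℤ) (m : α) (U : Finset α) (hU : ∀ u ∈ U, m < u) :
    XS v e a (insert m U) = ∑ C ∈ U.powerset,
      e ((bs m U C).card) * TS v a m (U \ C) *
        qi v (((bs m U C).card : ℤ) - sp a (bs m U C) C) * XS v e a C := by
  have hne : (insert m U).Nonempty := insert_nonempty m U
  have hmU : m ∉ U := fun h => lt_irrefl _ (hU m h)
  have hmin : (insert m U).min' hne = m := by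
    apply le_antisymm
    · exact min'_le _ _ (mem_insert_self _ _)
    · apply le_min'
      intro y hy
      rcases mem_insert.1 hy with h | h
      · exact h.ge
      · exact (hU y h).le
  have her : (insert m U).erase m = U := erase_insert hmU
  rw [XS, dif_pos hne, sum_attach _ (fun C => e ((bs ((insert m U).min' hne)
      ((insert m U).erase ((insert m U).min' hne)) C).card) *
        TS v a ((insert m U).min' hne) ((insert m U).erase ((insert m U).min' hne) \ C) *
        qi v (((bs ((insert m U).min' hne) ((insert m U).erase ((insert m U).min' hne)) C).card : ℤ) -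
          sp a (bs ((insert m U).min' hne) ((insert m U).erase ((insert m U).min' hne)) C) C) *
        XS v e a C)]
  simp only [hmin, her]

theorem exists_min_insert {S : Finset α} (h : S.Nonempty) :
    ∃ m U, S = insert m U ∧ ∀ u ∈ U, m < u := by
  refine ⟨S.min' h, S.erase (S.min' h), (insert_erase (min'_mem S h)).symm, ?_⟩
  intro u hu
  exact min'_lt_of_mem_erase_min' S h hu

theorem XS_congr {a a' : α → α → ℤ} (S : Finset α)
    (h : ∀ x ∈ S, ∀ y ∈ S, a x y = a' x y) : XS v e a S = XS v e a' S := by
  induction S using Finset.strongInduction with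
  | H S ih =>
    rcases S.eq_empty_or_nonempty with rfl | hS
    · rw [XS_empty, XS_empty]
    · obtain ⟨m, U, rfl, hU⟩ := exists_min_insert hS
      have hmU : m ∉ U := fun h => lt_irrefl _ (hU m h)
      rw [XS_insert v e a m U hU, XS_insert v e a' m U hU]
      apply sum_congr rfl
      intro C hC
      have hC' := mem_powerset.1 hC
      have hCs : C ⊆ insert m U := hC'.trans (subset_insert _ _)
      have hBs : bs m U C ⊆ insert m U := by
        unfold bs; exact insert_subset_insert _ sdiff_subset
      rw [ih C (lt_of_le_of_lt hC' (ssubset_insert hmU))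
        (fun x hx y hy => h x (hCs hx) y (hCs hy)),
        sp_congr (fun x hx y hy => h x (hBs hx) y (hCs hy)),
        TS_congr v (a := a) (a' := a') (fun x hx y hy => h x (hBs hx) y (hBs hy))]

/-- **(D_c)**: `∑_{w ∈ S} [c_w] X(a^(w); S) = [c_S] X(a; S)` for every form `a` and every `c`. -/
theorem XS_deriv (hreg : Reg v) (a : α → α → ℤ) (c : α → ℤ) (S : Finset α) :
    ∑ u ∈ S, qi v (c u) * XS v e (shift a c u) S = qi v (∑ u ∈ S, c u) * XS v e a S := by
  induction S using Finset.strongInduction with
  | H S ih =>
    rcases S.eq_empty_or_nonempty with rfl | hS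
    · simp [qi_zero]
    · obtain ⟨m, U, rfl, hU⟩ := exists_min_insert hS
      have hmU : m ∉ U := fun h => lt_irrefl _ (hU m h)
      simp only [XS_insert v e _ m U hU, mul_sum]
      rw [sum_comm]
      apply sum_congr rfl
      intro C hC
      have hC' := mem_powerset.1 hC
      have hmC : m ∉ C := fun h => hmU (hC' h)
      have hdis : Disjoint (bs m U C) C := by
        unfold bs
        rw [disjoint_insert_left]
        exact ⟨hmC, sdiff_disjoint⟩
      have hun : insert m U = bs m U C ∪ C := by
        unfold bs
        rw [insert_union, sdiff_union_of_subset hC']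
      have hB2 : insert m (U \ C) = bs m U C := rfl
      rw [hun, sum_union hdis, sum_union hdis]
      have hT : ∑ u ∈ bs m U C, qi v (c u) * (e ((bs m U C).card) *
            TS v (shift a c u) m (U \ C) * qi v (((bs m U C).card : ℤ) -
            sp (shift a c u) (bs m U C) C) * XS v e (shift a c u) C) =
          e ((bs m U C).card) * qi v (((bs m U C).card : ℤ) - sp a (bs m U C) C - ∑ y ∈ C, c y) *
            XS v e a C * ∑ u ∈ insert m (U \ C), qi v (c u) * TS v (shift a c u) m (U \ C) := by
        rw [hB2, mul_sum]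
        apply sum_congr rfl
        intro u hu
        have huC : u ∉ C := disjoint_left.1 hdis hu
        rw [sp_shift_left a c hu huC, XS_congr v e C (a := shift a c u) (a' := a)
          (fun x hx y hy => shift_off a c (fun h => huC (h ▸ hx)) (fun h => huC (h ▸ hy))),
          ← sub_sub]
        ring
      have hX : ∑ u ∈ C, qi v (c u) * (e ((bs m U C).card) *
            TS v (shift a c u) m (U \ C) * qi v (((bs m U C).card : ℤ) -
            sp (shift a c u) (bs m U C) C) * XS v e (shift a c u) C) =
          e ((bs m U C).card) * TS v a m (U \ C) *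
            qi v (((bs m U C).card : ℤ) - sp a (bs m U C) C + ∑ x ∈ bs m U C, c x) *
            ∑ u ∈ C, qi v (c u) * XS v e (shift a c u) C := by
        rw [mul_sum]
        apply sum_congr rfl
        intro u hu
        have huB : u ∉ bs m U C := disjoint_right.1 hdis hu
        rw [sp_shift_right a c huB hu, TS_congr v (a := shift a c u) (a' := a)
          (fun x hx y hy => shift_off a c (fun h => huB (h ▸ hx)) (fun h => huB (h ▸ hy)))]
        have : ((bs m U C).card : ℤ) - (sp a (bs m U C) C - ∑ x ∈ bs m U C, c x) =
          ((bs m U C).card : ℤ) - sp a (bs m U C) C + ∑ x ∈ bs m U C, c x := by ring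
        rw [this]
        ring
      rw [hT, hX, TS_deriv v hreg a c m (U \ C) (fun u hu => hU u (mem_sdiff.1 hu).1), hB2,
        ih C (lt_of_le_of_lt hC' (ssubset_insert hmU))]
      have := qi_exch v hreg (∑ y ∈ C, c y) (∑ x ∈ bs m U C, c x)
        (((bs m U C).card : ℤ) - sp a (bs m U C) C)
      rw [add_comm (∑ x ∈ bs m U C, c x) (∑ y ∈ C, c y)]
      linear_combination (e ((bs m U C).card) * TS v a m (U \ C) * XS v e a C) * this

end Crest.Agent.R59.Skew613
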